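import Vale.Agent.P150.Fast.OpNorm
import Vale.Agent.P150.Fast.PartB.Defs

/-! The predicate `OpNorm.OpLe` is the `L2Operator` matrix norm; `nrm`, `fnrm` are roots of `nsq`, `fsq`. -/

namespace Vale.Agent.P150.Fast.OpNorm

open Matrix
open scoped Matrix.Norms.L2Operator

variable {ι κ : Type*} [Fintype ι] [Fintype κ]

lemma norm_toLp (v : ι → ℝ) : ‖WithLp.toLp 2 v‖ = √(nsq v) := by
  simp [EuclideanSpace.norm_eq, nsq]

lemma opLe_iff_norm_le [DecidableEq κ] {X : Matrix ι κ ℝ} {K : ℝ} : OpLe X K ↔ ‖X‖ ≤ K := by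
  constructor
  · intro h
    rw [Matrix.l2_opNorm_def]
    refine ContinuousLinearMap.opNorm_le_bound _ h.1 fun x => ?_
    have e : x = WithLp.toLp 2 (WithLp.ofLp x) := rfl
    calc _ = √(nsq (X *ᵥ WithLp.ofLp x)) := norm_toLp _
      _ ≤ √(K ^ 2 * nsq (WithLp.ofLp x)) := Real.sqrt_le_sqrt (h.2 _)
      _ = K * ‖x‖ := by rw [Real.sqrt_mul (sq_nonneg K), Real.sqrt_sq h.1, e, norm_toLp]
  · intro h
    refine ⟨(norm_nonneg X).trans h, fun w => ?_⟩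
    have h1 := (Matrix.l2_opNorm_mulVec X (WithLp.toLp 2 w)).trans
      (mul_le_mul_of_nonneg_right h (norm_nonneg _))
    simp only [norm_toLp] at h1
    have h2 : √(nsq (X *ᵥ w)) ≤ K * √(nsq w) := by simpa [EuclideanSpace.norm_eq, nsq] using h1
    calc nsq (X *ᵥ w) = √(nsq (X *ᵥ w)) ^ 2 := (Real.sq_sqrt (nsq_nonneg _)).symm
      _ ≤ (K * √(nsq w)) ^ 2 := pow_le_pow_left₀ (Real.sqrt_nonneg _) h2 2
      _ = K ^ 2 * nsq w := by rw [mul_pow, Real.sq_sqrt (nsq_nonneg w)]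

lemma nrm_eq (v : ι → ℝ) : PartB.nrm v = √(nsq v) := rfl

lemma fnrm_eq {n : ℕ} (M : Matrix (Fin n) (Fin n) ℝ) : PartB.fnrm M = √(fsq M) := rfl

end Vale.Agent.P150.Fast.OpNorm
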