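import Vale.Agent.P150.GaussCalc

/-! Gaussian Poincaré inequality for `C¹` functions and the first-chaos lower bound on finite products.
The proof interpolates along rotations of two independent copies. -/

open MeasureTheory ProbabilityTheory

namespace Vale.Agent.P150.PoincareC1

variable {ι : Type*} [Fintype ι]

/-- characteristic function of a linear form -/
lemma charFun_lin (c : ι → ℝ) :
    ∫ w, Complex.exp ((∑ e, c e * w e : ℝ) * Complex.I) ∂gauss ι =
      Complex.exp (-((∑ e, c e ^ 2 : ℝ) : ℂ) / 2) := by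
  unfold gauss
  push_cast
  simp only [Finset.sum_mul, Complex.exp_sum]
  rw [integral_fintype_prod_eq_prod
    (fun e (t : ℝ) => Complex.exp ((c e : ℂ) * (t : ℂ) * Complex.I)), ← Finset.sum_neg_distrib,
    Finset.sum_div, Complex.exp_sum]
  refine Finset.prod_congr rfl fun e _ => ?_
  rw [← charFun_apply_real, charFun_gaussianReal]
  congr 1
  push_cast
  ring

/-- first copy after rotating two copies by the angle `a` -/
noncomputable def rotl (a : ℝ) (v : ι ⊕ ι → ℝ) : ι → ℝ :=
  fun i => Real.cos a * v (.inl i) + Real.sin a * v (.inr i)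

/-- rotation of two copies by the angle `a` -/
noncomputable def rot (a : ℝ) (v : ι ⊕ ι → ℝ) : ι ⊕ ι → ℝ :=
  Sum.elim (rotl a v) fun i => Real.sin a * v (.inl i) - Real.cos a * v (.inr i)

omit [Fintype ι] in
lemma continuous_rotl (a : ℝ) : Continuous (rotl (ι := ι) a) := by unfold rotl; fun_prop

omit [Fintype ι] in
lemma continuous_rot (a : ℝ) : Continuous (rot (ι := ι) a) := by
  refine continuous_pi fun j => ?_
  cases j <;> simp only [rot, rotl, Sum.elim_inl, Sum.elim_inr] <;> fun_prop

lemma measurePreserving_rot (a : ℝ) :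
    MeasurePreserving (rot a) (gauss (ι ⊕ ι)) (gauss (ι ⊕ ι)) := by
  classical
  have hm : Measurable (rot (ι := ι) a) := (continuous_rot a).measurable
  refine ⟨hm, ?_⟩
  apply Measure.ext_of_charFunDual
  ext L
  set p : ι ⊕ ι → ℝ := fun e => L (Pi.single e 1)
  have hL : ∀ v, L v = ∑ e, p e * v e := fun v => by
    have hv : v = ∑ e, v e • (Pi.single e 1 : ι ⊕ ι → ℝ) := by
      ext j; simp [Finset.sum_apply, Pi.single_apply]
    conv_lhs => rw [hv]
    simp only [map_sum, map_smul, smul_eq_mul, p, mul_comm]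
  set c : ι ⊕ ι → ℝ := Sum.elim (fun i => Real.cos a * p (.inl i) + Real.sin a * p (.inr i))
    fun i => Real.sin a * p (.inl i) - Real.cos a * p (.inr i)
  have e1 : ∀ v, L (rot a v) = ∑ e, c e * v e := fun v => by
    rw [hL]
    simp only [Fintype.sum_sum_type, rot, rotl, c, Sum.elim_inl, Sum.elim_inr,
      ← Finset.sum_add_distrib]
    exact Finset.sum_congr rfl fun i _ => by ring
  have e2 : ∑ e, c e ^ 2 = ∑ e, p e ^ 2 := by
    simp only [Fintype.sum_sum_type, c, Sum.elim_inl, Sum.elim_inr, ← Finset.sum_add_distrib]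
    refine Finset.sum_congr rfl fun i _ => ?_
    linear_combination (p (.inl i) ^ 2 + p (.inr i) ^ 2) * Real.sin_sq_add_cos_sq a
  rw [charFunDual_apply, charFunDual_apply, integral_map hm.aemeasurable (by fun_prop)]
  simp only [e1, hL, charFun_lin, e2]

lemma measurePreserving_fst_copy :
    MeasurePreserving (fun (v : ι ⊕ ι → ℝ) i => v (.inl i)) (gauss (ι ⊕ ι)) (gauss ι) :=
  measurePreserving_fst.comp
    (measurePreserving_sumPiEquivProdPi (fun _ : ι ⊕ ι => gaussianReal 0 1))

lemma measurePreserving_rotl (a : ℝ) :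
    MeasurePreserving (rotl a) (gauss (ι ⊕ ι)) (gauss ι) :=
  measurePreserving_fst_copy.comp (measurePreserving_rot a)

lemma l1_fst_le (v : ι ⊕ ι → ℝ) : l1 (fun i => v (.inl i)) ≤ l1 v := by
  simp only [l1, Fintype.sum_sum_type]
  exact le_add_of_nonneg_right (Finset.sum_nonneg fun _ _ => abs_nonneg _)

lemma l1_rotl_le (a : ℝ) (v : ι ⊕ ι → ℝ) : l1 (rotl a v) ≤ l1 v := by
  simp only [l1, Fintype.sum_sum_type, rotl, ← Finset.sum_add_distrib]
  refine Finset.sum_le_sum fun i _ => (abs_add_le _ _).trans (add_le_add ?_ ?_) <;> rw [abs_mul] <;>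
    exact mul_le_of_le_one_left (abs_nonneg _) (by first | exact Real.abs_cos_le_one a | exact Real.abs_sin_le_one a)

/-- the linear form with coefficients `c` -/
noncomputable def lin (c : ι → ℝ) : (ι → ℝ) →L[ℝ] ℝ :=
  ∑ k, c k • ContinuousLinearMap.proj (R := ℝ) (φ := fun _ : ι => ℝ) k

lemma lin_apply (c v : ι → ℝ) : lin c v = ∑ k, c k * v k := by simp [lin]

section

variable {f : (ι → ℝ) → ℝ} {f' : (ι → ℝ) → ι → ℝ} {C M : ℝ}

lemma deriv_coord [DecidableEq ι] (hd : ∀ z, HasFDerivAt f (lin (f' z)) z) (k : ι)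
    (z : ι → ℝ) (t : ℝ) :
    HasDerivAt (fun s => f (Function.update z k s)) (f' (Function.update z k t) k) t := by
  refine ((hd _).comp_hasDerivAt t (hasDerivAt_update z k t)).congr_deriv ?_
  simp [lin_apply, Pi.single_apply]

lemma integrable_sq {g : (ι → ℝ) → ℝ} (hg : Continuous g)
    (hb : ∀ z, |g z| ≤ C * Real.exp (M * l1 z)) : Integrable (fun z => g z ^ 2) (gauss ι) :=
  integrable_of_bound (C := C ^ 2) (M := 2 * M) (hg.pow 2) fun z => by
    rw [abs_pow, mul_assoc, two_mul, ← mul_add, ← two_mul]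
    refine (pow_le_pow_left₀ (abs_nonneg _) (hb z) 2).trans (le_of_eq ?_)
    rw [mul_pow, ← Real.exp_nat_mul]; push_cast; ring_nf

/-- the rotated covariance integrand of one coordinate, after integration by parts -/
lemma ibp_rot (hM : 0 ≤ M) (hC : 0 ≤ C) (hd : ∀ z, HasFDerivAt f (lin (f' z)) z)
    (hf' : Continuous f') (hb : ∀ z, |f z| ≤ C * Real.exp (M * l1 z))
    (hb' : ∀ z k, |f' z k| ≤ C * Real.exp (M * l1 z)) (a : ℝ) (k : ι) :
    ∫ v, f (fun i => v (.inl i)) * (f' (rotl a v) k *
        (-Real.sin a * v (.inl k) + Real.cos a * v (.inr k))) ∂gauss (ι ⊕ ι) =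
      -(Real.sin a * ∫ v, f' (fun i => v (.inl i)) k * f' (rotl a v) k ∂gauss (ι ⊕ ι)) := by
  classical
  have hf : Continuous f := continuous_iff_continuousAt.2 fun z => (hd z).continuousAt
  have hk : Continuous fun z => f' z k := (continuous_apply k).comp hf'
  have hl : Continuous fun (v : ι ⊕ ι → ℝ) i => v (Sum.inl i) := by fun_prop
  set φ : (ι ⊕ ι → ℝ) → ℝ := fun v => f' (fun i => v (.inl i)) k * f (rotl a v)
  set φ' : (ι ⊕ ι → ℝ) → ℝ :=
    fun v => Real.sin a * (f' (fun i => v (.inl i)) k * f' (rotl a v) k)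
  have hφ : Continuous φ := (hk.comp hl).mul (hf.comp (continuous_rotl a))
  have hφ' : Continuous φ' := continuous_const.mul ((hk.comp hl).mul (hk.comp (continuous_rotl a)))
  have bound : ∀ (g : (ι → ℝ) → ℝ), (∀ z, |g z| ≤ C * Real.exp (M * l1 z)) → ∀ v : ι ⊕ ι → ℝ,
      |f' (fun i => v (.inl i)) k * g (rotl a v)| ≤ C ^ 2 * Real.exp (2 * M * l1 v) := by
    intro g hg v
    have e := Real.exp_le_exp.2 (mul_le_mul_of_nonneg_left (l1_fst_le v) hM)
    have e' := Real.exp_le_exp.2 (mul_le_mul_of_nonneg_left (l1_rotl_le a v) hM)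
    rw [abs_mul, show 2 * M * l1 v = M * l1 v + M * l1 v by ring, Real.exp_add, sq, mul_mul_mul_comm]
    exact mul_le_mul ((hb' _ k).trans (mul_le_mul_of_nonneg_left e hC))
      ((hg _).trans (mul_le_mul_of_nonneg_left e' hC)) (abs_nonneg _) (by positivity)
  have hbd' : ∀ v, |φ' v| ≤ C ^ 2 * Real.exp (2 * M * l1 v) := fun v => by
    rw [abs_mul]
    exact (mul_le_of_le_one_left (abs_nonneg _) (Real.abs_sin_le_one a)).trans
      (bound _ (fun z => hb' z k) v)
  have hder : ∀ v t, HasDerivAt (fun s => φ (Function.update v (Sum.inr k) s))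
      (φ' (Function.update v (Sum.inr k) t)) t := fun v t => by
    have el : ∀ s, (fun i => Function.update v (Sum.inr k) s (Sum.inl i)) = fun i => v (.inl i) :=
      fun s => funext fun i => Function.update_of_ne (by simp) _ _
    have hcur : HasDerivAt (fun s => rotl a (Function.update v (Sum.inr k) s))
        (Pi.single k (Real.sin a)) t := by
      refine hasDerivAt_pi.2 fun i => ?_
      simp only [rotl, ne_eq, reduceCtorEq, not_false_eq_true, Function.update_of_ne]
      by_cases hi : i = k
      · subst hi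
        simp only [Function.update_self, Pi.single_eq_same]
        simpa using ((hasDerivAt_id t).const_mul (Real.sin a)).const_add (Real.cos a * v (.inl i))
      · simp only [Function.update_of_ne (show (Sum.inr i : ι ⊕ ι) ≠ Sum.inr k by simpa using hi),
          Pi.single_eq_of_ne hi]
        exact hasDerivAt_const _ _
    have h := ((hd (rotl a (Function.update v (Sum.inr k) t))).comp_hasDerivAt t hcur).const_mul
      (f' (fun i => v (.inl i)) k)
    simp only [φ, φ', el]
    refine h.congr_deriv ?_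
    simp [lin_apply, Pi.single_apply]
    ring
  have key := gauss_ibp (Sum.inr k) (by positivity : (0:ℝ) ≤ 2 * M) hφ hφ' (bound f hb) hbd' hder
  rw [← integral_const_mul, ← key, ← integral_neg]
  have e4 := integral_map (μ := gauss (ι ⊕ ι)) (continuous_rot a).measurable.aemeasurable
    (f := fun y : ι ⊕ ι → ℝ => -(y (Sum.inr k) * φ y))
    ((continuous_apply (Sum.inr k)).mul hφ).neg.aestronglyMeasurable
  rw [(measurePreserving_rot a).map_eq] at e4
  rw [e4]
  refine integral_congr_ae (Filter.Eventually.of_forall fun v => ?_)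
  have e3 : rotl a (rot a v) = fun i => v (.inl i) := funext fun i => by
    simp only [rot, rotl, Sum.elim_inl, Sum.elim_inr]
    linear_combination v (.inl i) * Real.sin_sq_add_cos_sq a
  simp only [φ, rot, Sum.elim_inr, Sum.elim_inl]
  rw [show rotl a (Sum.elim (rotl a v) _) = _ from e3]
  ring

/-- Gaussian Poincaré inequality -/
theorem gauss_poincare (hM : 0 ≤ M) (hd : ∀ z, HasFDerivAt f (lin (f' z)) z) (hf' : Continuous f')
    (hb : ∀ z, |f z| ≤ C * Real.exp (M * l1 z))
    (hb' : ∀ z k, |f' z k| ≤ C * Real.exp (M * l1 z)) :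
    ∫ z, f z ^ 2 ∂gauss ι - (∫ z, f z ∂gauss ι) ^ 2 ≤ ∫ z, ∑ k, f' z k ^ 2 ∂gauss ι := by
  classical
  have hC : 0 ≤ C := nonneg_of_mul_nonneg_left ((abs_nonneg _).trans (hb 0)) (Real.exp_pos _)
  have hf : Continuous f := continuous_iff_continuousAt.2 fun z => (hd z).continuousAt
  have hk : ∀ k, Continuous fun z => f' z k := fun k => (continuous_apply k).comp hf'
  have hl : Continuous fun (v : ι ⊕ ι → ℝ) i => v (Sum.inl i) := by fun_prop
  set G := ∫ z, ∑ k, f' z k ^ 2 ∂gauss ι
  set φ := fun a => ∫ v, f (fun i => v (.inl i)) * f (rotl a v) ∂gauss (ι ⊕ ι)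
  set D := fun a => ∫ v, ∑ k, f (fun i => v (.inl i)) *
    (f' (rotl a v) k * (-Real.sin a * v (.inl k) + Real.cos a * v (.inr k))) ∂gauss (ι ⊕ ι)
  have term : ∀ a k (v : ι ⊕ ι → ℝ), |f (fun i => v (.inl i)) *
      (f' (rotl a v) k * (-Real.sin a * v (.inl k) + Real.cos a * v (.inr k)))| ≤
      C ^ 2 * Real.exp ((2 * M + 1) * l1 v) := by
    intro a k v
    have e := Real.exp_le_exp.2 (mul_le_mul_of_nonneg_left (l1_fst_le v) hM)
    have e' := Real.exp_le_exp.2 (mul_le_mul_of_nonneg_left (l1_rotl_le a v) hM)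
    have hw : |-Real.sin a * v (.inl k) + Real.cos a * v (.inr k)| ≤ Real.exp (l1 v) := by
      refine le_trans ?_ ((le_add_of_nonneg_right zero_le_one).trans (Real.add_one_le_exp _))
      refine (abs_add_le _ _).trans (le_trans (add_le_add (b := |v (.inl k)|) (d := |v (.inr k)|) ?_ ?_) ?_)
      · rw [abs_mul, abs_neg]; exact mul_le_of_le_one_left (abs_nonneg _) (Real.abs_sin_le_one a)
      · rw [abs_mul]; exact mul_le_of_le_one_left (abs_nonneg _) (Real.abs_cos_le_one a)
      · simp only [l1, Fintype.sum_sum_type]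
        exact add_le_add (Finset.single_le_sum (f := fun i => |v (.inl i)|) (fun _ _ => abs_nonneg _)
          (Finset.mem_univ k)) (Finset.single_le_sum (f := fun i => |v (.inr i)|)
          (fun _ _ => abs_nonneg _) (Finset.mem_univ k))
    rw [abs_mul, abs_mul, show (2 * M + 1) * l1 v = M * l1 v + (M * l1 v + l1 v) by ring, Real.exp_add,
      Real.exp_add, show C ^ 2 * (Real.exp (M * l1 v) * (Real.exp (M * l1 v) * Real.exp (l1 v))) =
        C * Real.exp (M * l1 v) * (C * Real.exp (M * l1 v) * Real.exp (l1 v)) by ring]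
    exact mul_le_mul ((hb _).trans (mul_le_mul_of_nonneg_left e hC))
      (mul_le_mul ((hb' _ k).trans (mul_le_mul_of_nonneg_left e' hC)) hw (abs_nonneg _) (by positivity))
      (by positivity) (by positivity)
  have hφ : ∀ a, HasDerivAt φ (D a) a := fun a => by
    refine hasDerivAt_gauss_integral (C₀ := C ^ 2) (M₀ := 2 * M)
      (C := Fintype.card ι * C ^ 2) (M := 2 * M + 1)
      (F := fun θ v => f (fun i => v (.inl i)) * f (rotl θ v))
      (F' := fun θ v => ∑ k, f (fun i => v (.inl i)) *
        (f' (rotl θ v) k * (-Real.sin θ * v (.inl k) + Real.cos θ * v (.inr k))))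
      (fun θ => (hf.comp hl).mul (hf.comp (continuous_rotl θ)))
      (fun θ => continuous_finsetSum _ fun k _ =>
        (hf.comp hl).mul (((hk k).comp (continuous_rotl θ)).mul (by fun_prop)))
      (fun v => ?_) (fun θ _ v => ?_) (fun θ v => ?_)
    · have e := Real.exp_le_exp.2 (mul_le_mul_of_nonneg_left (l1_fst_le v) hM)
      have e' := Real.exp_le_exp.2 (mul_le_mul_of_nonneg_left (l1_rotl_le a v) hM)
      rw [abs_mul, show 2 * M * l1 v = M * l1 v + M * l1 v by ring, Real.exp_add, sq, mul_mul_mul_comm]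
      exact mul_le_mul ((hb _).trans (mul_le_mul_of_nonneg_left e hC))
        ((hb _).trans (mul_le_mul_of_nonneg_left e' hC)) (abs_nonneg _) (by positivity)
    · refine (Finset.abs_sum_le_sum_abs _ _).trans ((Finset.sum_le_sum fun k _ => term θ k v).trans ?_)
      rw [Finset.sum_const, nsmul_eq_mul, Finset.card_univ, mul_assoc]
    · have hcur : HasDerivAt (fun s => rotl s v)
          (fun i => -Real.sin θ * v (.inl i) + Real.cos θ * v (.inr i)) θ :=
        hasDerivAt_pi.2 fun i =>
          ((Real.hasDerivAt_cos θ).mul_const _).add ((Real.hasDerivAt_sin θ).mul_const _)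
      refine (((hd (rotl θ v)).comp_hasDerivAt θ hcur).const_mul (f (fun i => v (.inl i)))).congr_deriv ?_
      rw [lin_apply, Finset.mul_sum]
  have hI : ∀ a k, Integrable (fun v : ι ⊕ ι → ℝ => f' (rotl a v) k ^ 2) (gauss (ι ⊕ ι)) := fun a k =>
    (measurePreserving_rotl a).integrable_comp_of_integrable (integrable_sq (hk k) fun z => hb' z k)
  have hI0 : ∀ k, Integrable (fun v : ι ⊕ ι → ℝ => f' (fun i => v (.inl i)) k ^ 2) (gauss (ι ⊕ ι)) :=
    fun k =>
    measurePreserving_fst_copy.integrable_comp_of_integrable (integrable_sq (hk k) fun z => hb' z k)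
  have trans_int : ∀ {h : (ι ⊕ ι → ℝ) → ι → ℝ}, MeasurePreserving h (gauss (ι ⊕ ι)) (gauss ι) →
      ∀ {g : (ι → ℝ) → ℝ}, Continuous g →
      ∫ v, g (h v) ∂gauss (ι ⊕ ι) = ∫ z, g z ∂gauss ι := fun hh g hg => by
    conv_rhs => rw [← hh.map_eq]
    exact (integral_map hh.measurable.aemeasurable hg.aestronglyMeasurable).symm
  have hD : ∀ a, 0 ≤ Real.sin a → 0 ≤ D a + Real.sin a * G := by
    intro a ha
    have hint : ∀ k, Integrable (fun v : ι ⊕ ι → ℝ => f (fun i => v (.inl i)) *
        (f' (rotl a v) k * (-Real.sin a * v (.inl k) + Real.cos a * v (.inr k)))) (gauss (ι ⊕ ι)) :=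
      fun k => integrable_of_bound
        ((hf.comp hl).mul (((hk k).comp (continuous_rotl a)).mul (by fun_prop))) (term a k)
    rw [show D a = _ from integral_finsetSum _ fun k _ => hint k, show G = _ from
      integral_finsetSum _ fun k _ => integrable_sq (hk k) fun z => hb' z k, Finset.mul_sum,
      ← Finset.sum_add_distrib]
    refine Finset.sum_nonneg fun k _ => ?_
    rw [ibp_rot hM hC hd hf' hb hb' a k, neg_add_eq_sub, ← mul_sub]
    refine mul_nonneg ha (sub_nonneg.2 ?_)
    have hp : ∀ v : ι ⊕ ι → ℝ, f' (fun i => v (.inl i)) k * f' (rotl a v) k ≤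
        f' (fun i => v (.inl i)) k ^ 2 / 2 + f' (rotl a v) k ^ 2 / 2 := fun v => by
      nlinarith [sq_nonneg (f' (fun i => v (.inl i)) k - f' (rotl a v) k)]
    refine (integral_mono ?_ (((hI0 k).div_const 2).add ((hI a k).div_const 2)) hp).trans (le_of_eq ?_)
    · refine (((hI0 k).div_const 2).add ((hI a k).div_const 2)).mono'
        (((hk k).comp hl).mul ((hk k).comp (continuous_rotl a))).aestronglyMeasurable
        (Filter.Eventually.of_forall fun v => ?_)
      rw [Real.norm_eq_abs, abs_mul, Pi.add_apply]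
      nlinarith [sq_nonneg (|f' (fun i => v (.inl i)) k| - |f' (rotl a v) k|),
        sq_abs (f' (fun i => v (.inl i)) k), sq_abs (f' (rotl a v) k)]
    · simp only [Pi.add_apply]
      rw [integral_add ((hI0 k).div_const 2) ((hI a k).div_const 2), integral_div, integral_div,
        trans_int measurePreserving_fst_copy (g := fun z => f' z k ^ 2) ((hk k).pow 2),
        trans_int (measurePreserving_rotl a) (g := fun z => f' z k ^ 2) ((hk k).pow 2)]
      ring
  have mono : MonotoneOn (fun a => φ a - Real.cos a * G) (Set.Icc 0 (Real.pi / 2)) := by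
    have hder : ∀ a, HasDerivAt (fun a => φ a - Real.cos a * G) (D a + Real.sin a * G) a := fun a => by
      refine ((hφ a).sub ((Real.hasDerivAt_cos a).mul_const G)).congr_deriv ?_
      ring
    refine monotoneOn_of_hasDerivWithinAt_nonneg (convex_Icc _ _)
      (fun a _ => (hder a).continuousAt.continuousWithinAt) (fun a _ => (hder a).hasDerivWithinAt)
      fun a ha => hD a ?_
    rw [interior_Icc] at ha
    exact Real.sin_nonneg_of_nonneg_of_le_pi ha.1.le (by linarith [ha.2, Real.pi_pos])
  have h := mono (Set.left_mem_Icc.2 (by positivity)) (Set.right_mem_Icc.2 (by positivity)) (by positivity)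
  have h0 : φ 0 = ∫ z, f z ^ 2 ∂gauss ι := by
    rw [← trans_int measurePreserving_fst_copy (g := fun z => f z ^ 2) (hf.pow 2)]
    refine integral_congr_ae (Filter.Eventually.of_forall fun v => ?_)
    show f _ * f (rotl 0 v) = _
    rw [show rotl 0 v = fun i => v (Sum.inl i) from funext fun i => by simp [rotl], ← sq]
  have h1 : φ (Real.pi / 2) = (∫ z, f z ∂gauss ι) ^ 2 := by
    have hp := measurePreserving_sumPiEquivProdPi (fun _ : ι ⊕ ι => gaussianReal 0 1)
    calc φ (Real.pi / 2) = ∫ v, (fun p : (ι → ℝ) × (ι → ℝ) => f p.1 * f p.2)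
          (MeasurableEquiv.sumPiEquivProdPi (fun _ : ι ⊕ ι => ℝ) v) ∂gauss (ι ⊕ ι) := by
          refine integral_congr_ae (Filter.Eventually.of_forall fun v => ?_)
          show f _ * f (rotl _ v) = f _ * f _
          rw [show rotl (Real.pi / 2) v = fun i => v (Sum.inr i) from funext fun i => by simp [rotl]]
          rfl
      _ = ∫ p, f p.1 * f p.2 ∂((gauss ι).prod (gauss ι)) :=
          hp.integral_comp (MeasurableEquiv.measurableEmbedding _) (fun p => f p.1 * f p.2)
      _ = (∫ z, f z ∂gauss ι) ^ 2 := by rw [integral_prod_mul f f, sq]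
  simp only [Real.cos_zero, Real.cos_pi_div_two, one_mul, zero_mul, sub_zero, h0, h1] at h
  linarith

/-- first-chaos lower bound for the variance -/
theorem first_chaos (hM : 0 ≤ M) (hd : ∀ z, HasFDerivAt f (lin (f' z)) z) (hf' : Continuous f')
    (hb : ∀ z, |f z| ≤ C * Real.exp (M * l1 z))
    (hb' : ∀ z k, |f' z k| ≤ C * Real.exp (M * l1 z)) :
    ∑ k, (∫ z, f' z k ∂gauss ι) ^ 2 ≤ ∫ z, f z ^ 2 ∂gauss ι - (∫ z, f z ∂gauss ι) ^ 2 := by
  classical
  have hC : 0 ≤ C := nonneg_of_mul_nonneg_left ((abs_nonneg _).trans (hb 0)) (Real.exp_pos _)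
  have hf : Continuous f := continuous_iff_continuousAt.2 fun z => (hd z).continuousAt
  set c : ι → ℝ := fun k => ∫ z, f' z k ∂gauss ι
  set m := ∫ z, f z ∂gauss ι
  have one_le : ∀ z : ι → ℝ, |(1 : ℝ)| ≤ 1 * Real.exp (0 * l1 z) := fun z => by simp
  have coord : ∀ k, Integrable (fun z : ι → ℝ => z k) (gauss ι) := fun k =>
    integrable_of_bound (continuous_apply k) (C := 1) (M := 1) fun z => by
      rw [one_mul, one_mul]
      exact (abs_le_l1 z k).trans ((le_add_of_nonneg_right zero_le_one).trans (Real.add_one_le_exp _))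
  have zk : ∀ k, ∫ z, z k * f z ∂gauss ι = c k := fun k =>
    gauss_ibp k hM hf ((continuous_apply k).comp hf') hb (fun z => hb' z k)
      fun z t => deriv_coord hd k z t
  have z1 : ∀ k, ∫ z : ι → ℝ, z k ∂gauss ι = 0 := fun k => by
    have := gauss_ibp (ι := ι) k le_rfl (φ := fun _ => (1:ℝ)) (φ' := fun _ => 0) continuous_const
      continuous_const one_le (fun z => by simpa using (Real.exp_pos _).le) fun z t => hasDerivAt_const t 1
    simpa using this
  have hdot : ∀ z, |dot c z| ≤ l1 c * Real.exp (1 * l1 z) := fun z => by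
    refine (abs_dot_le (A := l1 c) (abs_le_l1 c) z).trans (mul_le_mul_of_nonneg_left ?_ (l1_nonneg c))
    rw [one_mul]; exact (le_add_of_nonneg_right zero_le_one).trans (Real.add_one_le_exp _)
  have cdot : Continuous fun z => dot c z := by unfold dot; fun_prop
  have zd : ∀ k, ∫ z, z k * dot c z ∂gauss ι = c k := fun k => by
    rw [gauss_ibp (C := l1 c + |c k|) (M := 1) k zero_le_one cdot (φ' := fun _ => c k) continuous_const
      (fun z => (hdot z).trans (mul_le_mul_of_nonneg_right (le_add_of_nonneg_right (abs_nonneg _))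
        (Real.exp_pos _).le))
      (fun z => (le_add_of_nonneg_left (l1_nonneg c)).trans (le_mul_of_one_le_right
        (add_nonneg (l1_nonneg c) (abs_nonneg _)) (Real.one_le_exp (by rw [one_mul]; exact l1_nonneg z))))
      fun z t => ?_]
    · simp
    · unfold dot
      have := HasDerivAt.fun_sum (u := Finset.univ) fun j (_ : j ∈ Finset.univ) =>
        (hasDerivAt_pi.1 (hasDerivAt_update z k t) j).const_mul (c j)
      simpa [Pi.single_apply] using this
  have i1 : Integrable f (gauss ι) := integrable_of_bound hf hb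
  have i2 : Integrable (fun z => f z ^ 2) (gauss ι) := integrable_sq hf hb
  have i3 : Integrable (fun z => dot c z ^ 2) (gauss ι) := integrable_sq cdot hdot
  have izk : ∀ k, Integrable (fun z : ι → ℝ => z k * f z) (gauss ι) := fun k =>
    integrable_of_bound ((continuous_apply k).mul hf) (C := C) (M := M + 1) fun z => by
      rw [abs_mul, add_mul, one_mul, Real.exp_add, mul_comm |z k|, ← mul_assoc]
      exact mul_le_mul (hb z) ((abs_le_l1 z k).trans ((le_add_of_nonneg_right zero_le_one).trans
        (Real.add_one_le_exp _))) (abs_nonneg _) (mul_nonneg hC (Real.exp_pos _).le)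
  have izd : ∀ k, Integrable (fun z : ι → ℝ => z k * dot c z) (gauss ι) := fun k =>
    integrable_of_bound ((continuous_apply k).mul cdot) (C := l1 c) (M := 2) fun z => by
      rw [abs_mul, two_mul, Real.exp_add, mul_comm |z k|, ← mul_assoc]
      exact mul_le_mul (by simpa using hdot z) ((abs_le_l1 z k).trans ((le_add_of_nonneg_right
        zero_le_one).trans (Real.add_one_le_exp _))) (abs_nonneg _) (mul_nonneg (l1_nonneg c) (Real.exp_pos _).le)
  have efd : ∫ z, f z * dot c z ∂gauss ι = ∑ k, c k ^ 2 := by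
    rw [show (fun z => f z * dot c z) = fun z => ∑ k, c k * (z k * f z) from funext fun z => by
      rw [dot, Finset.mul_sum]; exact Finset.sum_congr rfl fun k _ => by ring,
      integral_finsetSum _ fun k _ => (izk k).const_mul (c k)]
    exact Finset.sum_congr rfl fun k _ => by rw [integral_const_mul, zk, sq]
  have edd : ∫ z, dot c z ^ 2 ∂gauss ι = ∑ k, c k ^ 2 := by
    rw [show (fun z => dot c z ^ 2) = fun z => ∑ k, c k * (z k * dot c z) from funext fun z => by
      rw [sq, dot, Finset.sum_mul]; exact Finset.sum_congr rfl fun k _ => by ring,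
      integral_finsetSum _ fun k _ => (izd k).const_mul (c k)]
    exact Finset.sum_congr rfl fun k _ => by rw [integral_const_mul, zd, sq]
  have ed : ∫ z, dot c z ∂gauss ι = 0 := by
    unfold dot
    rw [integral_finsetSum _ fun k _ => (coord k).const_mul (c k)]
    simp [integral_const_mul, z1]
  have id1 : Integrable (fun z => dot c z) (gauss ι) := integrable_of_bound cdot hdot
  have ifd : Integrable (fun z => f z * dot c z) (gauss ι) := by
    refine ((i2.add i3).div_const 2).mono' (hf.mul cdot).aestronglyMeasurable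
      (Filter.Eventually.of_forall fun z => ?_)
    rw [Real.norm_eq_abs, abs_mul, Pi.add_apply]
    nlinarith [sq_nonneg (|f z| - |dot c z|), sq_abs (f z), sq_abs (dot c z)]
  have key : 0 ≤ ∫ z, (f z - m - dot c z) ^ 2 ∂gauss ι := integral_nonneg fun z => sq_nonneg _
  have a2 : Integrable (fun z => f z ^ 2 + dot c z ^ 2) (gauss ι) := i2.add i3
  have a3 : Integrable (fun z => f z ^ 2 + dot c z ^ 2 + m ^ 2) (gauss ι) := a2.add (integrable_const _)
  have b2 : Integrable (fun z => 2 * m * f z + 2 * (f z * dot c z)) (gauss ι) :=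
    (i1.const_mul _).add (ifd.const_mul 2)
  have b3 : Integrable (fun z => 2 * m * f z + 2 * (f z * dot c z) - 2 * m * dot c z) (gauss ι) :=
    b2.sub (id1.const_mul _)
  rw [show (fun z => (f z - m - dot c z) ^ 2) = fun z => (f z ^ 2 + dot c z ^ 2 + m ^ 2) -
      (2 * m * f z + 2 * (f z * dot c z) - 2 * m * dot c z) from funext fun z => by ring,
    integral_sub a3 b3, integral_add a2 (integrable_const _), integral_add i2 i3,
    integral_sub b2 (id1.const_mul _),
    integral_add (i1.const_mul _) (ifd.const_mul 2), integral_const_mul, integral_const_mul,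
    integral_const_mul, efd, edd, ed] at key
  simp at key
  linarith

end

end Vale.Agent.P150.PoincareC1
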