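import Vale.Agent.P150.GaussCalc

/-! Finite Gaussian channels: translation, Bayes identity and the derivative of the relative entropy.
The observation is `t² a₀ + t g`, so `s = t²` is the time of the channel. -/

open MeasureTheory ProbabilityTheory

namespace Vale.Agent.P150.Channel

variable {κ : Type*} [Fintype κ] {S : Type*} [Fintype S]

lemma lintegral_prod_pi (μ : Measure ℝ) [IsProbabilityMeasure μ] {f : κ → ℝ → ENNReal}
    (hf : ∀ i, Measurable (f i)) :
    ∫⁻ x, ∏ i, f i (x i) ∂(Measure.pi fun _ : κ => μ) = ∏ i, ∫⁻ y, f i y ∂μ := by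
  rw [lintegral_prod_eq_prod_lintegral_of_indepFun (μ := Measure.pi fun _ : κ => μ) Finset.univ
    (fun i x => f i (x i)) (iIndepFun_pi fun i => (hf i).aemeasurable)
    fun i => (hf i).comp (measurable_pi_apply i)]
  refine Finset.prod_congr rfl fun i _ => ?_
  rw [← lintegral_map (hf i) (measurable_pi_apply i), (measurePreserving_eval _ i).map_eq]

lemma gauss_tilt (a : ℝ) :
    (gaussianReal 0 1).withDensity (fun t => ENNReal.ofReal (Real.exp (a * t - a ^ 2 / 2))) = gaussianReal a 1 := by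
  rw [gaussianReal_of_var_ne_zero _ one_ne_zero, gaussianReal_of_var_ne_zero _ one_ne_zero,
    ← withDensity_mul _ (by fun_prop) (by fun_prop)]
  congr 1
  funext t
  simp only [Pi.mul_apply, gaussianPDF, gaussianPDFReal, NNReal.coe_one]
  rw [← ENNReal.ofReal_mul (by positivity), mul_assoc, ← Real.exp_add]
  congr 3
  ring

/-- squared Euclidean norm -/
def nsq (a : κ → ℝ) : ℝ := ∑ k, a k ^ 2

/-- translation of a standard Gaussian vector -/
lemma translate (a : κ → ℝ) (F : (κ → ℝ) → ℝ) :
    ∫ z, F (z + a) ∂gauss κ = ∫ z, Real.exp (dot a z - nsq a / 2) * F z ∂gauss κ := by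
  classical
  set w := fun (i : κ) (t : ℝ) => Real.exp (a i * t - a i ^ 2 / 2)
  have e : ∀ y, Real.exp (dot a y - nsq a / 2) = ∏ i, w i (y i) := fun y => by
    simp only [w, ← Real.exp_sum, Finset.sum_sub_distrib, Finset.sum_div, dot, nsq]
  have hp : Measure.pi (fun i => gaussianReal (a i) 1) =
      (gauss κ).withDensity fun y => ENNReal.ofReal (∏ i, w i (y i)) := by
    refine Measure.pi_eq fun s hs => ?_
    rw [withDensity_apply _ (MeasurableSet.univ_pi hs), Finset.prod_congr rfl fun i (_ : i ∈ Finset.univ) =>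
      show gaussianReal (a i) 1 (s i) = ∫⁻ t in s i, ENNReal.ofReal (w i t) ∂gaussianReal 0 1 by
        rw [← gauss_tilt (a i), withDensity_apply _ (hs i)]]
    rw [← lintegral_indicator (MeasurableSet.univ_pi hs)]
    have e2 : (Set.univ.pi s).indicator (fun y => ENNReal.ofReal (∏ i, w i (y i))) =
        fun y => ∏ i, (s i).indicator (fun t => ENNReal.ofReal (w i t)) (y i) := by
      funext y
      by_cases h : y ∈ Set.univ.pi s
      · rw [Set.indicator_of_mem h, ENNReal.ofReal_prod_of_nonneg fun i _ => (Real.exp_pos _).le]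
        exact Finset.prod_congr rfl fun i _ =>
          (Set.indicator_of_mem (h i (Set.mem_univ i)) (fun t => ENNReal.ofReal (w i t))).symm
      · obtain ⟨i, hi⟩ : ∃ i, y i ∉ s i := by simpa using h
        rw [Set.indicator_of_notMem h]
        exact (Finset.prod_eq_zero (Finset.mem_univ i) (Set.indicator_of_notMem hi _)).symm
    rw [e2, gauss, lintegral_prod_pi]
    · exact Finset.prod_congr rfl fun i _ => lintegral_indicator (hs i) _
    all_goals exact fun i =>
      ((by fun_prop : Measurable fun t => ENNReal.ofReal (w i t)).indicator (hs i))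
  have hmap : (gauss κ).map (fun y => y + a) = Measure.pi (fun i => gaussianReal (a i) 1) := by
    rw [gauss, show (fun y : κ → ℝ => y + a) = fun y i => y i + a i from rfl,
      Measure.pi_map_pi (f := fun i t => t + a i) fun i =>
        (by fun_prop : Measurable fun t => t + a i).aemeasurable]
    simp only [gaussianReal_map_add_const, zero_add]
  have he : MeasurableEmbedding fun y : κ → ℝ => y + a := (MeasurableEquiv.addRight a).measurableEmbedding
  rw [← he.integral_map (g := F), hmap, hp, integral_withDensity_eq_integral_toReal_smul (by fun_prop)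
    (Filter.Eventually.of_forall fun _ => ENNReal.ofReal_lt_top)]
  refine integral_congr_ae (Filter.Eventually.of_forall fun y => ?_)
  simp only [e, smul_eq_mul]
  rw [ENNReal.toReal_ofReal (Finset.prod_nonneg fun i _ => (Real.exp_pos _).le)]

/-- exponential weights -/
noncomputable def wsum (p : S → ℝ) (E : S → ℝ) (f : S → ℝ) : ℝ := ∑ x, p x * Real.exp (E x) * f x

/-- average under the tilted weights -/
noncomputable def wavg (p : S → ℝ) (E : S → ℝ) (f : S → ℝ) : ℝ := wsum p E f / wsum p E 1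

/-- log likelihood of `x` at the observation `y` -/
noncomputable def en (a : S → κ → ℝ) (t : ℝ) (y : κ → ℝ) (x : S) : ℝ := dot (a x) y - t ^ 2 * nsq (a x) / 2

/-- log of the partition function -/
noncomputable def lz (p : S → ℝ) (a : S → κ → ℝ) (t : ℝ) (y : κ → ℝ) : ℝ :=
  Real.log (wsum p (en a t y) 1)

/-- posterior mean -/
noncomputable def pm (p : S → ℝ) (a : S → κ → ℝ) (t : ℝ) (y : κ → ℝ) (k : κ) : ℝ :=
  wavg p (en a t y) fun x => a x k

/-- observation -/
def obs (a₀ : κ → ℝ) (t : ℝ) (g : κ → ℝ) : κ → ℝ := fun k => t ^ 2 * a₀ k + t * g k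

/-- positive total weight -/
structure Wt (p : S → ℝ) : Prop where
  nn : ∀ x, 0 ≤ p x
  pos : 0 < ∑ x, p x

/-- relative entropy of the two observation laws -/
noncomputable def klc (p q : S → ℝ) (a : S → κ → ℝ) (t : ℝ) : ℝ :=
  ∑ x, p x * ∫ g, (lz p a t (obs (a x) t g) - lz q a t (obs (a x) t g)) ∂gauss κ

variable {p q : S → ℝ} {a : S → κ → ℝ}

omit [Fintype κ] in
lemma Wt.wsum_pos (hp : Wt p) (E : S → ℝ) : 0 < wsum p E 1 := by
  obtain ⟨x, hx⟩ : ∃ x, 0 < p x := by
    by_contra h
    push Not at h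
    exact absurd hp.pos (not_lt.2 (Finset.sum_nonpos fun x _ => h x))
  refine Finset.sum_pos' (fun y _ => ?_) ⟨x, Finset.mem_univ x, ?_⟩
  · simpa using mul_nonneg (hp.nn y) (Real.exp_pos _).le
  · simpa using mul_pos hx (Real.exp_pos _)

omit [Fintype κ] in
lemma Wt.abs_wavg (hp : Wt p) (E : S → ℝ) {f : S → ℝ} {K : ℝ} (hf : ∀ x, |f x| ≤ K) :
    |wavg p E f| ≤ K := by
  rw [wavg, abs_div, abs_of_pos (hp.wsum_pos E), div_le_iff₀ (hp.wsum_pos E), wsum, wsum, Finset.mul_sum]
  refine (Finset.abs_sum_le_sum_abs _ _).trans (Finset.sum_le_sum fun x _ => ?_)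
  rw [abs_mul, abs_of_nonneg (mul_nonneg (hp.nn x) (Real.exp_pos _).le), Pi.one_apply, mul_one, mul_comm K]
  exact mul_le_mul_of_nonneg_left (hf x) (mul_nonneg (hp.nn x) (Real.exp_pos _).le)

omit [Fintype κ] in
lemma Wt.abs_log_wsum (hp : Wt p) {E : S → ℝ} {M : ℝ} (hE : ∀ x, |E x| ≤ M) :
    |Real.log (wsum p E 1)| ≤ |Real.log (∑ x, p x)| + M := by
  have h1 : wsum p E 1 ≤ (∑ x, p x) * Real.exp M := by
    rw [wsum, Finset.sum_mul]
    refine Finset.sum_le_sum fun x _ => ?_
    simpa using mul_le_mul_of_nonneg_left (Real.exp_le_exp.2 ((le_abs_self _).trans (hE x))) (hp.nn x)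
  have h2 : (∑ x, p x) * Real.exp (-M) ≤ wsum p E 1 := by
    rw [wsum, Finset.sum_mul]
    refine Finset.sum_le_sum fun x _ => ?_
    simpa using mul_le_mul_of_nonneg_left (Real.exp_le_exp.2 (neg_le_of_abs_le (hE x))) (hp.nn x)
  have l1 := Real.log_le_log (hp.wsum_pos E) h1
  have l2 := Real.log_le_log (mul_pos hp.pos (Real.exp_pos _)) h2
  rw [Real.log_mul hp.pos.ne' (Real.exp_ne_zero _), Real.log_exp] at l1 l2
  rw [abs_le]
  constructor <;> linarith [le_abs_self (Real.log (∑ x, p x)), neg_abs_le (Real.log (∑ x, p x))]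

omit [Fintype κ] in
lemma hasDerivAt_wsum {E : ℝ → S → ℝ} {d : S → ℝ} {t : ℝ}
    (h : ∀ x, HasDerivAt (fun s => E s x) (d x) t) (f : S → ℝ) :
    HasDerivAt (fun s => wsum p (E s) f) (wsum p (E t) (f * d)) t := by
  unfold wsum
  refine HasDerivAt.fun_sum fun x _ => ?_
  exact (((h x).exp.const_mul (p x)).mul_const (f x)).congr_deriv (by simp only [Pi.mul_apply]; ring)

omit [Fintype κ] in
lemma Wt.hasDerivAt_log (hp : Wt p) {E : ℝ → S → ℝ} {d : S → ℝ} {t : ℝ}
    (h : ∀ x, HasDerivAt (fun s => E s x) (d x) t) :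
    HasDerivAt (fun s => Real.log (wsum p (E s) 1)) (wavg p (E t) d) t := by
  refine ((hasDerivAt_wsum h 1).log (hp.wsum_pos _).ne').congr_deriv ?_
  rw [one_mul, wavg]

omit [Fintype κ] in
lemma Wt.hasDerivAt_wavg (hp : Wt p) {E : ℝ → S → ℝ} {d : S → ℝ} {t : ℝ}
    (h : ∀ x, HasDerivAt (fun s => E s x) (d x) t) (f : S → ℝ) :
    HasDerivAt (fun s => wavg p (E s) f) (wavg p (E t) (f * d) - wavg p (E t) f * wavg p (E t) d) t := by
  refine ((hasDerivAt_wsum h f).div (hasDerivAt_wsum h 1) (hp.wsum_pos _).ne').congr_deriv ?_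
  have := (hp.wsum_pos (E t)).ne'
  rw [one_mul]
  unfold wavg
  field_simp

omit [Fintype κ] in
lemma wavg_const_mul (p E : S → ℝ) (c : ℝ) (f : S → ℝ) : wavg p E (fun x => c * f x) = c * wavg p E f := by
  simp only [wavg, wsum, ← mul_div_assoc, Finset.mul_sum]
  congr 1
  exact Finset.sum_congr rfl fun x _ => by ring

omit [Fintype S] in
lemma continuous_en (t : ℝ) (x : S) : Continuous fun y => en a t y x := by
  unfold en dot; fun_prop

omit [Fintype κ] in
lemma continuous_obs (a₀ : κ → ℝ) (t : ℝ) : Continuous (obs a₀ t) := by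
  unfold obs; fun_prop

lemma Wt.continuous_lz (hp : Wt p) (t : ℝ) : Continuous (lz p a t) := by
  refine Continuous.log ?_ fun y => (hp.wsum_pos _).ne'
  unfold wsum
  refine continuous_finsetSum _ fun x _ => ?_
  have := continuous_en (a := a) t x
  fun_prop

lemma Wt.continuous_wavg (hp : Wt p) (t : ℝ) (f : S → ℝ) : Continuous fun y => wavg p (en a t y) f := by
  refine Continuous.div ?_ ?_ fun y => (hp.wsum_pos _).ne' <;>
  · unfold wsum
    refine continuous_finsetSum _ fun x _ => ?_
    have := continuous_en (a := a) t x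
    fun_prop

lemma Wt.continuous_pm (hp : Wt p) (t : ℝ) (k : κ) : Continuous fun y => pm p a t y k :=
  hp.continuous_wavg t _

/-- a bound for all coordinates -/
def bnd (a : S → κ → ℝ) : ℝ := ∑ x, ∑ k, |a x k|

lemma abs_le_bnd (a : S → κ → ℝ) (x : S) (k : κ) : |a x k| ≤ bnd a :=
  (Finset.single_le_sum (f := fun k => |a x k|) (fun _ _ => abs_nonneg _) (Finset.mem_univ k)).trans
    (Finset.single_le_sum (f := fun x => ∑ k, |a x k|) (fun _ _ => Finset.sum_nonneg fun _ _ => abs_nonneg _)
      (Finset.mem_univ x))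

lemma bnd_nonneg (a : S → κ → ℝ) : 0 ≤ bnd a :=
  Finset.sum_nonneg fun _ _ => Finset.sum_nonneg fun _ _ => abs_nonneg _

lemma Wt.abs_pm (hp : Wt p) (t : ℝ) (y : κ → ℝ) (k : κ) : |pm p a t y k| ≤ bnd a :=
  hp.abs_wavg _ fun x => abs_le_bnd a x k

lemma add_le_exp (A B L : ℝ) (hA : 0 ≤ A) (hB : 0 ≤ B) (hL : 0 ≤ L) : A + B * L ≤ (A + B) * Real.exp (1 * L) := by
  rw [one_mul, add_mul]
  exact add_le_add (le_mul_of_one_le_right hA (Real.one_le_exp hL))
    (mul_le_mul_of_nonneg_left ((le_add_of_nonneg_right zero_le_one).trans (Real.add_one_le_exp _)) hB)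

lemma abs_en_obs (a₀ : κ → ℝ) (t : ℝ) (g : κ → ℝ) (x : S) :
    |en a t (obs a₀ t g) x| ≤ t ^ 2 * (bnd a * l1 a₀ + nsq (a x) / 2) + |t| * bnd a * l1 g := by
  have e : en a t (obs a₀ t g) x = t ^ 2 * dot (a x) a₀ + t * dot (a x) g - t ^ 2 * nsq (a x) / 2 := by
    simp only [en, obs, dot, Finset.mul_sum, ← Finset.sum_add_distrib]
    congr 1
    exact Finset.sum_congr rfl fun k _ => by ring
  have h1 := abs_dot_le (abs_le_bnd a x) a₀
  have h2 := abs_dot_le (abs_le_bnd a x) g
  have h3 : 0 ≤ nsq (a x) := Finset.sum_nonneg fun _ _ => sq_nonneg _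
  have h1' := mul_le_mul_of_nonneg_left h1 (sq_nonneg t)
  have h2' := mul_le_mul_of_nonneg_left h2 (abs_nonneg t)
  rw [e]
  refine (abs_sub _ _).trans ?_
  refine (add_le_add (abs_add_le _ _) le_rfl).trans ?_
  rw [abs_mul, abs_mul, abs_of_nonneg (sq_nonneg t), abs_of_nonneg (by positivity : 0 ≤ t ^ 2 * nsq (a x) / 2)]
  linarith

lemma Wt.lz_bound (hp : Wt p) (a₀ : κ → ℝ) (t : ℝ) :
    ∃ C, ∀ g, |lz p a t (obs a₀ t g)| ≤ C * Real.exp (1 * l1 g) := by
  refine ⟨|Real.log (∑ x, p x)| + t ^ 2 * (bnd a * l1 a₀ + (∑ x, nsq (a x)) / 2) + |t| * bnd a, fun g => ?_⟩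
  have h0 := bnd_nonneg a
  have hs : ∀ x, nsq (a x) ≤ ∑ x, nsq (a x) := fun x =>
    Finset.single_le_sum (f := fun x => nsq (a x)) (fun _ _ => Finset.sum_nonneg fun _ _ => sq_nonneg _)
      (Finset.mem_univ x)
  have hn : 0 ≤ ∑ x, nsq (a x) := Finset.sum_nonneg fun _ _ => Finset.sum_nonneg fun _ _ => sq_nonneg _
  refine (hp.abs_log_wsum (M := t ^ 2 * (bnd a * l1 a₀ + (∑ x, nsq (a x)) / 2) + |t| * bnd a * l1 g) fun x =>
    (abs_en_obs a₀ t g x).trans ?_).trans ?_
  · gcongr
    exact hs x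
  · rw [← add_assoc]
    have := l1_nonneg a₀
    exact add_le_exp _ _ _ (by positivity) (by positivity) (l1_nonneg g)

lemma Wt.integrable_lz (hp : Wt p) (a₀ : κ → ℝ) (t : ℝ) :
    Integrable (fun g => lz p a t (obs a₀ t g)) (gauss κ) := by
  obtain ⟨C, hC⟩ := hp.lz_bound (a := a) a₀ t
  exact integrable_of_bound ((hp.continuous_lz t).comp (continuous_obs a₀ t)) hC

/-- posterior variance of a coordinate -/
noncomputable def pvar (p : S → ℝ) (a : S → κ → ℝ) (t : ℝ) (y : κ → ℝ) (k : κ) : ℝ :=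
  wavg p (en a t y) (fun x => a x k ^ 2) - pm p a t y k ^ 2

lemma Wt.abs_pvar (hp : Wt p) (t : ℝ) (y : κ → ℝ) (k : κ) : |pvar p a t y k| ≤ 2 * bnd a ^ 2 := by
  have h : ∀ {u : ℝ}, |u| ≤ bnd a → |u ^ 2| ≤ bnd a ^ 2 := fun {u} hu => by
    rw [abs_pow]; exact pow_le_pow_left₀ (abs_nonneg _) hu 2
  refine (abs_sub _ _).trans ?_
  rw [two_mul]
  exact add_le_add (hp.abs_wavg _ fun x => h (abs_le_bnd a x k)) (h (hp.abs_pm t y k))

/-- derivative of the planted log partition function -/
lemma Wt.hasDerivAt_planted (hp : Wt p) (a₀ : κ → ℝ) (t : ℝ) :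
    HasDerivAt (fun s => ∫ g, lz p a s (obs a₀ s g) ∂gauss κ)
      (t * ∫ g, ∑ k, (2 * a₀ k * pm p a t (obs a₀ t g) k - pm p a t (obs a₀ t g) k ^ 2) ∂gauss κ) t := by
  classical
  set F' := fun (s : ℝ) (g : κ → ℝ) => ∑ k, (pm p a s (obs a₀ s g) k * (2 * s * a₀ k + g k)
      - s * wavg p (en a s (obs a₀ s g)) (fun x => a x k ^ 2)) with hF'
  have hd : ∀ s g, HasDerivAt (fun u => lz p a u (obs a₀ u g)) (F' s g) s := by
    intro s g
    have hx : ∀ x, HasDerivAt (fun u => en a u (obs a₀ u g) x)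
        (∑ k, (a x k * (2 * s * a₀ k + g k) - s * a x k ^ 2)) s := by
      intro x
      have h1 : ∀ k, HasDerivAt (fun u : ℝ => a x k * (u ^ 2 * a₀ k + u * g k))
          (a x k * (2 * s * a₀ k + g k)) s := fun k =>
        ((((hasDerivAt_pow 2 s).mul_const (a₀ k)).add ((hasDerivAt_id' s).mul_const (g k))).const_mul (a x k)).congr_deriv
          (by simp)
      refine ((HasDerivAt.fun_sum fun k (_ : k ∈ Finset.univ) => h1 k).sub
        (((hasDerivAt_pow 2 s).mul_const (nsq (a x))).div_const 2)).congr_deriv ?_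
      rw [Finset.sum_sub_distrib, ← Finset.mul_sum, nsq]
      simp; ring
    refine (hp.hasDerivAt_log hx).congr_deriv ?_
    simp only [hF', pm, wavg, wsum, div_mul_eq_mul_div, ← mul_div_assoc, ← sub_div, ← Finset.sum_div]
    congr 1
    simp only [Finset.mul_sum, Finset.sum_mul, ← Finset.sum_sub_distrib]
    rw [Finset.sum_comm]
    exact Finset.sum_congr rfl fun k _ => Finset.sum_congr rfl fun x _ => by ring
  obtain ⟨C₀, hC₀⟩ := hp.lz_bound (a := a) a₀ t
  set K := bnd a
  have hK : 0 ≤ K := bnd_nonneg a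
  set R := |t| + 1 with hR
  have hR0 : 0 ≤ R := by positivity
  have hb : ∀ s, |s - t| ≤ 1 → ∀ g, |F' s g| ≤
      ((K * (2 * R) * l1 a₀ + Fintype.card κ * (R * K ^ 2)) + K) * Real.exp (1 * l1 g) := by
    intro s hs g
    have hsR : |s| ≤ R := by
      have := abs_sub_abs_le_abs_sub s t
      rw [hR]; linarith
    refine le_trans ?_ (add_le_exp _ _ _ (by positivity [l1_nonneg a₀]) hK (l1_nonneg g))
    refine (Finset.abs_sum_le_sum_abs _ _).trans ((Finset.sum_le_sum
      (g := fun k => K * (2 * R) * |a₀ k| + R * K ^ 2 + K * |g k|) fun k _ => ?_).trans_eq ?_)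
    · refine (abs_sub _ _).trans ?_
      rw [abs_mul, abs_mul]
      have h1 := hp.abs_pm (a := a) s (obs a₀ s g) k
      have h2 : |wavg p (en a s (obs a₀ s g)) (fun x => a x k ^ 2)| ≤ K ^ 2 := hp.abs_wavg _ fun x => by
        rw [abs_pow]; exact pow_le_pow_left₀ (abs_nonneg _) (abs_le_bnd a x k) 2
      have h3 : |2 * s * a₀ k + g k| ≤ 2 * R * |a₀ k| + |g k| := by
        refine (abs_add_le _ _).trans (add_le_add ?_ le_rfl)
        rw [abs_mul, abs_mul, abs_two]; gcongr
      have h4 := mul_le_mul h1 h3 (abs_nonneg _) hK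
      have h5 := mul_le_mul hsR h2 (abs_nonneg _) hR0
      linarith
    · simp only [Finset.sum_add_distrib, ← Finset.mul_sum, l1]
      simp; ring
  have hc' : ∀ s, Continuous (F' s) := fun s => by
    refine continuous_finsetSum _ fun k _ => ?_
    have h1 : Continuous fun g => pm p a s (obs a₀ s g) k := (hp.continuous_pm s k).comp (continuous_obs a₀ s)
    have h2 : Continuous fun g => wavg p (en a s (obs a₀ s g)) (fun x => a x k ^ 2) :=
      (hp.continuous_wavg s _).comp (continuous_obs a₀ s)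
    fun_prop
  refine (hasDerivAt_gauss_integral (F := fun s g => lz p a s (obs a₀ s g))
    (fun s => (hp.continuous_lz s).comp (continuous_obs a₀ s)) hc' hC₀ hb hd).congr_deriv ?_
  have hm : ∀ k, Continuous fun g => pm p a t (obs a₀ t g) k := fun k =>
    (hp.continuous_pm t k).comp (continuous_obs a₀ t)
  have hw : ∀ k, Continuous fun g => wavg p (en a t (obs a₀ t g)) (fun x => a x k ^ 2) := fun k =>
    (hp.continuous_wavg t _).comp (continuous_obs a₀ t)
  have hibp : ∀ k, ∫ g, g k * pm p a t (obs a₀ t g) k ∂gauss κ =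
      ∫ g, t * pvar p a t (obs a₀ t g) k ∂gauss κ := by
    intro k
    refine gauss_ibp k (C := K + |t| * (2 * K ^ 2)) zero_le_one (hm k)
      (by have := hm k; have := hw k; unfold pvar; fun_prop) ?_ ?_ ?_
    · intro g
      refine (hp.abs_pm _ _ _).trans ?_
      exact (le_add_of_nonneg_right (by positivity)).trans
        (le_mul_of_one_le_right (by positivity) (Real.one_le_exp (by linarith [l1_nonneg g])))
    · intro g
      rw [abs_mul]
      refine (mul_le_mul_of_nonneg_left (hp.abs_pvar _ _ _) (abs_nonneg t)).trans ?_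
      exact (le_add_of_nonneg_left hK).trans
        (le_mul_of_one_le_right (by positivity) (Real.one_le_exp (by linarith [l1_nonneg g])))
    · intro z u
      have hx : ∀ x, HasDerivAt (fun s => en a t (obs a₀ t (Function.update z k s)) x) (t * a x k) u := by
        intro x
        have h1 : ∀ j, HasDerivAt (fun s => a x j * (t ^ 2 * a₀ j + t * Function.update z k s j))
            (if j = k then t * a x k else 0) u := by
          intro j
          by_cases hj : j = k
          · subst hj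
            simp only [Function.update_self, if_true]
            exact ((((hasDerivAt_id' u).const_mul t).const_add (t ^ 2 * a₀ j)).const_mul (a x j)).congr_deriv (by ring)
          · simp only [Function.update_of_ne hj, if_neg hj]
            exact hasDerivAt_const u _
        refine ((HasDerivAt.fun_sum fun j (_ : j ∈ Finset.univ) => h1 j).sub_const
          (t ^ 2 * nsq (a x) / 2)).congr_deriv ?_
        simp
      refine (hp.hasDerivAt_wavg hx fun x => a x k).congr_deriv ?_
      rw [wavg_const_mul p _ t fun x => a x k, show ((fun x => a x k) * fun x => t * a x k)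
        = fun x => t * a x k ^ 2 from funext fun x => by simp only [Pi.mul_apply]; ring, wavg_const_mul]
      simp only [pvar, pm]
      ring
  have ib : ∀ {f : (κ → ℝ) → ℝ} {B : ℝ}, Continuous f → 0 ≤ B → (∀ g, |f g| ≤ B) → Integrable f (gauss κ) :=
    fun hf hB hb => integrable_of_bound (M := 1) hf fun g =>
      (hb g).trans (le_mul_of_one_le_right hB (Real.one_le_exp (by linarith [l1_nonneg g])))
  have i1 : ∀ k, Integrable (fun g => pm p a t (obs a₀ t g) k) (gauss κ) := fun k =>
    ib (hm k) hK fun g => hp.abs_pm _ _ _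
  have i2 : ∀ k, Integrable (fun g => wavg p (en a t (obs a₀ t g)) (fun x => a x k ^ 2)) (gauss κ) := fun k =>
    ib (hw k) (sq_nonneg K) fun g => hp.abs_wavg _ fun x => by
      rw [abs_pow]; exact pow_le_pow_left₀ (abs_nonneg _) (abs_le_bnd a x k) 2
  have i3 : ∀ k, Integrable (fun g => g k * pm p a t (obs a₀ t g) k) (gauss κ) := fun k =>
    integrable_of_bound (C := 0 + K) (M := 1) ((continuous_apply k).mul (hm k)) fun g => by
      refine le_trans ?_ (add_le_exp 0 K _ le_rfl hK (l1_nonneg g))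
      rw [zero_add, abs_mul, mul_comm]
      exact mul_le_mul (hp.abs_pm _ _ _) (abs_le_l1 g k) (abs_nonneg _) hK
  have i4 : ∀ k, Integrable (fun g => pm p a t (obs a₀ t g) k ^ 2) (gauss κ) := fun k =>
    ib ((hm k).pow 2) (sq_nonneg K) fun g => by
      rw [abs_pow]; exact pow_le_pow_left₀ (abs_nonneg _) (hp.abs_pm _ _ _) 2
  have i5 : ∀ k, Integrable (fun g => 2 * a₀ k * pm p a t (obs a₀ t g) k - pm p a t (obs a₀ t g) k ^ 2) (gauss κ) :=
    fun k => ((i1 k).const_mul _).sub (i4 k)
  have i6 : ∀ k, Integrable (fun g => pm p a t (obs a₀ t g) k * (2 * t * a₀ k + g k)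
      - t * wavg p (en a t (obs a₀ t g)) (fun x => a x k ^ 2)) (gauss κ) := fun k =>
    ((((i1 k).mul_const (2 * t * a₀ k)).add (i3 k)).sub ((i2 k).const_mul t)).congr
      (Filter.Eventually.of_forall fun g => by simp only [Pi.add_apply, Pi.sub_apply]; ring)
  simp only [hF']
  rw [integral_finsetSum _ fun k _ => i6 k, integral_finsetSum _ fun k _ => i5 k, Finset.mul_sum]
  refine Finset.sum_congr rfl fun k _ => ?_
  have e1 : ∀ g, pm p a t (obs a₀ t g) k * (2 * t * a₀ k + g k) - t * wavg p (en a t (obs a₀ t g)) (fun x => a x k ^ 2)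
      = (2 * t * a₀ k) * pm p a t (obs a₀ t g) k + g k * pm p a t (obs a₀ t g) k
        - t * wavg p (en a t (obs a₀ t g)) (fun x => a x k ^ 2) := fun g => by ring
  simp only [e1]
  rw [integral_sub (((i1 k).const_mul _).fun_add (i3 k)) ((i2 k).const_mul _),
    integral_add ((i1 k).const_mul _) (i3 k), hibp k]
  simp only [pvar, integral_const_mul]
  rw [integral_sub (i2 k) (i4 k), integral_sub ((i1 k).const_mul _) (i4 k), integral_const_mul]
  ring

/-- Bayes identity -/
lemma bayes (p : S → ℝ) (a : S → κ → ℝ) (t : ℝ) {Φ : (κ → ℝ) → ℝ} (hΦ : Continuous Φ) {C M : ℝ}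
    (hb : ∀ g, |Φ (fun k => t * g k)| ≤ C * Real.exp (M * l1 g)) :
    ∑ x, p x * ∫ g, Φ (obs (a x) t g) ∂gauss κ =
      ∫ g, wsum p (en a t fun k => t * g k) 1 * Φ (fun k => t * g k) ∂gauss κ := by
  have key : ∀ x, ∫ g, Φ (obs (a x) t g) ∂gauss κ =
      ∫ g, Real.exp (en a t (fun k => t * g k) x) * Φ (fun k => t * g k) ∂gauss κ := by
    intro x
    have e : ∀ g : κ → ℝ, obs (a x) t g = fun k => t * (g + fun j => t * a x j) k := fun g => by
      funext k; simp only [obs, Pi.add_apply]; ring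
    simp only [e]
    rw [translate (fun j => t * a x j) fun z => Φ fun k => t * z k]
    refine integral_congr_ae (Filter.Eventually.of_forall fun g => ?_)
    simp only [en, dot, nsq, mul_pow, ← Finset.mul_sum]
    congr 3
    exact Finset.sum_congr rfl fun k _ => by ring
  simp only [key, ← integral_const_mul]
  rw [← integral_finsetSum]
  · refine integral_congr_ae (Filter.Eventually.of_forall fun g => ?_)
    simp only [wsum, Pi.one_apply, mul_one, Finset.sum_mul, mul_assoc]
  · intro x _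
    refine Integrable.const_mul (integrable_of_bound (C := C) (M := |t| * bnd a + M) ?_ fun g => ?_) _
    · have := continuous_en (a := a) t x
      fun_prop
    · rw [abs_mul, Real.abs_exp, add_mul, Real.exp_add, mul_left_comm]
      refine mul_le_mul (Real.exp_le_exp.2 ?_) (hb g) (abs_nonneg _) (Real.exp_pos _).le
      have h1 : dot (a x) (fun k => t * g k) = t * dot (a x) g := by
        simp only [dot, Finset.mul_sum]; exact Finset.sum_congr rfl fun k _ => by ring
      have h2 := mul_le_mul_of_nonneg_left (abs_dot_le (abs_le_bnd a x) g) (abs_nonneg t)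
      rw [← abs_mul] at h2
      have h3 : 0 ≤ t ^ 2 * nsq (a x) / 2 :=
        div_nonneg (mul_nonneg (sq_nonneg t) (Finset.sum_nonneg fun _ _ => sq_nonneg _)) zero_le_two
      rw [en, h1]
      linarith [le_abs_self (t * dot (a x) g)]

/-- planted overlap of a posterior mean equals its overlap with the true posterior mean -/
lemma Wt.overlap (hp : Wt p) (hq : Wt q) (t : ℝ) (k : κ) :
    ∑ x, p x * ∫ g, a x k * pm q a t (obs (a x) t g) k ∂gauss κ =
      ∑ x, p x * ∫ g, pm p a t (obs (a x) t g) k * pm q a t (obs (a x) t g) k ∂gauss κ := by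
  set K := bnd a
  have hK : 0 ≤ K := bnd_nonneg a
  have hone : ∀ g : κ → ℝ, (1 : ℝ) ≤ Real.exp (0 * l1 g) := fun g => by simp
  have hL : ∑ x, p x * ∫ g, a x k * pm q a t (obs (a x) t g) k ∂gauss κ =
      ∫ g, wsum (fun x => p x * a x k) (en a t fun j => t * g j) 1 * pm q a t (fun j => t * g j) k ∂gauss κ := by
    rw [← bayes (fun x => p x * a x k) a t (hq.continuous_pm t k) (C := K) (M := 0) fun g =>
      (hq.abs_pm _ _ _).trans (le_mul_of_one_le_right hK (hone g))]
    exact Finset.sum_congr rfl fun x _ => by rw [integral_const_mul]; ring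
  have hR := bayes p a t (Φ := fun y => pm p a t y k * pm q a t y k)
    ((hp.continuous_pm t k).mul (hq.continuous_pm t k)) (C := K * K) (M := 0) fun g => by
      rw [abs_mul]
      exact (mul_le_mul (hp.abs_pm _ _ _) (hq.abs_pm _ _ _) (abs_nonneg _) hK).trans
        (le_mul_of_one_le_right (mul_nonneg hK hK) (hone g))
  rw [hL, hR]
  refine integral_congr_ae (Filter.Eventually.of_forall fun g => ?_)
  set E := en a t fun j => t * g j
  have h := (hp.wsum_pos E).ne'
  have e : wsum (fun x => p x * a x k) E 1 = wsum p E 1 * pm p a t (fun j => t * g j) k := by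
    show _ = wsum p E 1 * wavg p E _
    rw [wavg, mul_div_cancel₀ _ h]
    exact Finset.sum_congr rfl fun x _ => by simp; ring
  simp only [E] at e
  dsimp only
  rw [e, mul_assoc]

/-- derivative of the relative entropy along the channel -/
theorem klc_hasDerivAt (hp : Wt p) (hq : Wt q) (t : ℝ) :
    HasDerivAt (klc p q a)
      (t * ∑ x, p x * ∫ g, ∑ k, (pm p a t (obs (a x) t g) k - pm q a t (obs (a x) t g) k) ^ 2 ∂gauss κ) t := by
  have hsplit : klc p q a = fun s => ∑ x, p x *
      ((∫ g, lz p a s (obs (a x) s g) ∂gauss κ) - ∫ g, lz q a s (obs (a x) s g) ∂gauss κ) := by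
    funext s
    exact Finset.sum_congr rfl fun x _ => by rw [integral_sub (hp.integrable_lz _ _) (hq.integrable_lz _ _)]
  rw [hsplit]
  refine (HasDerivAt.fun_sum fun x (_ : x ∈ Finset.univ) =>
    ((hp.hasDerivAt_planted (a x) t).sub (hq.hasDerivAt_planted (a x) t)).const_mul (p x)).congr_deriv ?_
  set K := bnd a
  have hK : 0 ≤ K := bnd_nonneg a
  have ib : ∀ {f : (κ → ℝ) → ℝ} {B : ℝ}, Continuous f → 0 ≤ B → (∀ g, |f g| ≤ B) → Integrable f (gauss κ) :=
    fun hf hB hb => integrable_of_bound (M := 1) hf fun g =>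
      (hb g).trans (le_mul_of_one_le_right hB (Real.one_le_exp (by linarith [l1_nonneg g])))
  have hc : ∀ {r : S → ℝ}, Wt r → ∀ (x : S) (k : κ), Continuous fun g => pm r a t (obs (a x) t g) k :=
    fun hr x k => (hr.continuous_pm t k).comp (continuous_obs _ _)
  have iA : ∀ {r : S → ℝ}, Wt r → ∀ (x : S) (k : κ), Integrable (fun g => a x k * pm r a t (obs (a x) t g) k) (gauss κ) :=
    fun hr x k => (ib (hc hr x k) hK fun g => hr.abs_pm _ _ _).const_mul _
  have iM : ∀ {r r' : S → ℝ}, Wt r → Wt r' → ∀ (x : S) (k : κ),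
      Integrable (fun g => pm r a t (obs (a x) t g) k * pm r' a t (obs (a x) t g) k) (gauss κ) :=
    fun hr hr' x k => ib ((hc hr x k).mul (hc hr' x k)) (mul_nonneg hK hK) fun g => by
      rw [abs_mul]; exact mul_le_mul (hr.abs_pm _ _ _) (hr'.abs_pm _ _ _) (abs_nonneg _) hK
  set A := fun (r : S → ℝ) (x : S) (k : κ) => ∫ g, a x k * pm r a t (obs (a x) t g) k ∂gauss κ with hA
  set M := fun (r r' : S → ℝ) (x : S) (k : κ) =>
    ∫ g, pm r a t (obs (a x) t g) k * pm r' a t (obs (a x) t g) k ∂gauss κ with hM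
  have eL : ∀ {r : S → ℝ}, Wt r → ∀ x, ∫ g, ∑ k, (2 * a x k * pm r a t (obs (a x) t g) k
      - pm r a t (obs (a x) t g) k ^ 2) ∂gauss κ = 2 * (∑ k, A r x k) - ∑ k, M r r x k := by
    intro r hr x
    rw [Finset.mul_sum, ← Finset.sum_sub_distrib]
    simp only [mul_assoc (2 : ℝ), sq]
    have hi : ∀ k, Integrable (fun g => 2 * (a x k * pm r a t (obs (a x) t g) k)
        - pm r a t (obs (a x) t g) k * pm r a t (obs (a x) t g) k) (gauss κ) :=
      fun k => ((iA hr x k).const_mul 2).sub (iM hr hr x k)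
    rw [integral_finsetSum _ fun k _ => hi k]
    exact Finset.sum_congr rfl fun k _ => by
      rw [integral_sub ((iA hr x k).const_mul 2) (iM hr hr x k), integral_const_mul]
  have eR : ∀ x, ∫ g, ∑ k, (pm p a t (obs (a x) t g) k - pm q a t (obs (a x) t g) k) ^ 2 ∂gauss κ =
      (∑ k, M p p x k) + (∑ k, M q q x k) - 2 * ∑ k, M p q x k := by
    intro x
    have e : ∀ g k, (pm p a t (obs (a x) t g) k - pm q a t (obs (a x) t g) k) ^ 2 =
        pm p a t (obs (a x) t g) k * pm p a t (obs (a x) t g) k + pm q a t (obs (a x) t g) k * pm q a t (obs (a x) t g) k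
          - 2 * (pm p a t (obs (a x) t g) k * pm q a t (obs (a x) t g) k) := fun g k => by ring
    simp only [e]
    have hi : ∀ k, Integrable (fun g => pm p a t (obs (a x) t g) k * pm p a t (obs (a x) t g) k
        + pm q a t (obs (a x) t g) k * pm q a t (obs (a x) t g) k
          - 2 * (pm p a t (obs (a x) t g) k * pm q a t (obs (a x) t g) k)) (gauss κ) :=
      fun k => ((iM hp hp x k).fun_add (iM hq hq x k)).sub ((iM hp hq x k).const_mul 2)
    rw [integral_finsetSum _ fun k _ => hi k,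
      Finset.mul_sum, ← Finset.sum_add_distrib, ← Finset.sum_sub_distrib]
    exact Finset.sum_congr rfl fun k _ => by
      rw [integral_sub ((iM hp hp x k).fun_add (iM hq hq x k)) ((iM hp hq x k).const_mul 2),
        integral_add (iM hp hp x k) (iM hq hq x k), integral_const_mul]
  have s1 : ∀ {r : S → ℝ}, Wt r → ∑ x, p x * ∑ k, A r x k = ∑ x, p x * ∑ k, M p r x k := by
    intro r hr
    simp only [Finset.mul_sum]
    rw [Finset.sum_comm]
    conv_rhs => rw [Finset.sum_comm]
    exact Finset.sum_congr rfl fun k _ => hp.overlap hr t k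
  simp only [eL hp, eL hq, eR]
  have hpp := s1 hp
  have hpq := s1 hq
  have key : ∀ x, p x * (t * (2 * (∑ k, A p x k) - ∑ k, M p p x k) - t * (2 * (∑ k, A q x k) - ∑ k, M q q x k))
      = t * (2 * (p x * ∑ k, A p x k) - p x * ∑ k, M p p x k - 2 * (p x * ∑ k, A q x k) + p x * ∑ k, M q q x k) :=
    fun x => by ring
  have key' : ∀ x, p x * ((∑ k, M p p x k) + (∑ k, M q q x k) - 2 * ∑ k, M p q x k)
      = p x * (∑ k, M p p x k) + p x * (∑ k, M q q x k) - 2 * (p x * ∑ k, M p q x k) := fun x => by ring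
  rw [Finset.sum_congr rfl fun x _ => key x, Finset.sum_congr rfl fun x _ => key' x, ← Finset.mul_sum]
  simp only [Finset.sum_add_distrib, Finset.sum_sub_distrib, ← Finset.mul_sum (a := (2 : ℝ))]
  linear_combination 2 * t * hpp - 2 * t * hpq

/-- the same in the time `s = t²` -/
theorem klc_sqrt_hasDerivAt (hp : Wt p) (hq : Wt q) {s : ℝ} (hs : 0 < s) :
    HasDerivAt (fun u => klc p q a (Real.sqrt u))
      ((∑ x, p x * ∫ g, ∑ k, (pm p a (Real.sqrt s) (obs (a x) (Real.sqrt s) g) k
        - pm q a (Real.sqrt s) (obs (a x) (Real.sqrt s) g) k) ^ 2 ∂gauss κ) / 2) s := by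
  refine ((klc_hasDerivAt hp hq (Real.sqrt s)).comp s (Real.hasDerivAt_sqrt hs.ne')).congr_deriv ?_
  have := (Real.sqrt_pos.2 hs).ne'
  field_simp

/-- the channel starts with no information -/
lemma klc_zero (hp : ∑ x, p x = 1) (hq : ∑ x, q x = 1) : klc p q a 0 = 0 := by
  simp [klc, lz, wsum, en, obs, dot, hp, hq]

end Vale.Agent.P150.Channel
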