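import Vale.Agent.P150.Ising
import Vale.Agent.P150.Defs

/-! Discrete heat-bath dynamics (one site attempt per step) and its entropy production: the objects
of part A of the fast-mixing route. Times are measured in steps, `k` steps being time `k / n`. -/

namespace Vale.Agent.P150.Fast

open Finset

variable {n : ℕ} (J : Fin n → Fin n → ℝ) (b : Fin n → ℝ)

/-- the coupling matrix of the disorder -/
noncomputable def Jg (β : ℝ) (g : Edge n → ℝ) (i j : Fin n) : ℝ := β / Real.sqrt n * coupling g i j

/-- heat-bath probability of the value `c` at the site `i` -/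
noncomputable def hb (i : Fin n) (x : Cfg n) (c : Bool) : ℝ := (1 + spin c * Ising.mag J b i x) / 2

/-- one site -/
noncomputable def Qi (i : Fin n) (f : Cfg n → ℝ) (x : Cfg n) : ℝ :=
  ∑ c, hb J b i x c * f (Function.update x i c)

/-- one step: a uniform site is refreshed -/
noncomputable def stepOp (f : Cfg n → ℝ) (x : Cfg n) : ℝ := (∑ i, Qi J b i f x) / n

/-- the law after one step -/
noncomputable def push (ν : Cfg n → ℝ) (y : Cfg n) : ℝ :=
  ∑ x, ν x * stepOp J b (fun z => if z = y then 1 else 0) x

/-- expectation -/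
def ex (ν f : Cfg n → ℝ) : ℝ := ∑ x, ν x * f x

/-- a probability vector -/
structure Law (ν : Cfg n → ℝ) : Prop where
  nonneg : ∀ x, 0 ≤ ν x
  sum_one : ∑ x, ν x = 1

/-- relative entropy to the Ising measure -/
noncomputable def klTo (ν : Cfg n → ℝ) : ℝ := ∑ x, ν x * Real.log (ν x / Ising.wt J b x)

/-- relative entropy of the conditional law of the spin `i` to the heat bath -/
noncomputable def siteKL (i : Fin n) (ν : Cfg n → ℝ) : ℝ :=
  ∑ x, ν x * Real.log (ν x / (ν x + ν (flip i x)) / hb J b i x (x i))

/-- entropy production -/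
noncomputable def entProd (ν : Cfg n → ℝ) : ℝ := ∑ i, siteKL J b i ν

/-- squared discrete gradient -/
noncomputable def grad2 (f : Cfg n → ℝ) (x : Cfg n) : ℝ := ∑ i, Ising.dd i f x ^ 2

/-- attempts: at each step a site and its new value -/
abbrev Pth (n N : ℕ) := Fin N → Fin n × Bool

/-- the configuration after `k` steps -/
def pos {N : ℕ} (x : Cfg n) (p : Pth n N) : ℕ → Cfg n
  | 0 => x
  | k + 1 => if h : k < N then Function.update (pos x p k) (p ⟨k, h⟩).1 (p ⟨k, h⟩).2 else pos x p k

/-- probability of a path -/
noncomputable def lik {N : ℕ} (x : Cfg n) (p : Pth n N) : ℝ :=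
  ∏ k : Fin N, hb J b (p k).1 (pos x p k) (p k).2 / n

end Vale.Agent.P150.Fast
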