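import Mathlib

/-! Deterministic matrix bounds: operator norm as a predicate, Frobenius norm, Schur products. -/

namespace Vale.Agent.P150.Fast.OpNorm

open Matrix Finset

variable {ι κ μ : Type*} [Fintype ι] [Fintype κ] [Fintype μ]

/-- squared Euclidean norm -/
def nsq (v : ι → ℝ) : ℝ := ∑ i, v i ^ 2

/-- squared Frobenius norm -/
def fsq (X : Matrix ι κ ℝ) : ℝ := ∑ i, ∑ j, X i j ^ 2

/-- the Euclidean operator norm is at most `K` -/
def OpLe (X : Matrix ι κ ℝ) (K : ℝ) : Prop := 0 ≤ K ∧ ∀ w, nsq (X *ᵥ w) ≤ K ^ 2 * nsq w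

lemma nsq_nonneg (v : ι → ℝ) : 0 ≤ nsq v := sum_nonneg fun _ _ => sq_nonneg _

lemma fsq_nonneg (X : Matrix ι κ ℝ) : 0 ≤ fsq X := sum_nonneg fun _ _ => sum_nonneg fun _ _ => sq_nonneg _

lemma nsq_eq_dot (v : ι → ℝ) : nsq v = v ⬝ᵥ v := sum_congr rfl fun i _ => by ring

lemma nsq_smul (c : ℝ) (v : ι → ℝ) : nsq (c • v) = c ^ 2 * nsq v := by
  simp only [nsq, Pi.smul_apply, smul_eq_mul, mul_pow, mul_sum]

lemma eq_zero_of_nsq {v : ι → ℝ} (h : nsq v ≤ 0) : v = 0 := by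
  funext i
  have h1 : v i ^ 2 ≤ 0 := (single_le_sum (fun j _ => sq_nonneg (v j)) (mem_univ i)).trans h
  simpa using sq_eq_zero_iff.1 (le_antisymm h1 (sq_nonneg _))

lemma abs_dot_le (v w : ι → ℝ) : |v ⬝ᵥ w| ≤ √(nsq v) * √(nsq w) := by
  rw [← Real.sqrt_mul (nsq_nonneg v)]
  exact Real.abs_le_sqrt (sum_mul_sq_le_sq_mul_sq univ v w)

lemma sqrt_nsq_add (v w : ι → ℝ) : √(nsq (v + w)) ≤ √(nsq v) + √(nsq w) := by
  rw [Real.sqrt_le_left (by positivity)]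
  have h := (abs_le.1 (abs_dot_le v w)).2
  have e : nsq (v + w) = nsq v + nsq w + 2 * (v ⬝ᵥ w) := by
    simp only [nsq_eq_dot, add_dotProduct, dotProduct_add, dotProduct_comm w v]; ring
  rw [e, add_sq, Real.sq_sqrt (nsq_nonneg v), Real.sq_sqrt (nsq_nonneg w)]
  linarith

lemma fsq_eq (X : Matrix ι κ ℝ) : fsq X = nsq fun p : ι × κ => X p.1 p.2 :=
  (Fintype.sum_prod_type fun p : ι × κ => X p.1 p.2 ^ 2).symm

lemma sqrt_fsq_add (X Y : Matrix ι κ ℝ) : √(fsq (X + Y)) ≤ √(fsq X) + √(fsq Y) := by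
  simp only [fsq_eq]
  exact sqrt_nsq_add _ _

variable {X Y : Matrix ι κ ℝ} {K L : ℝ}

lemma OpLe.bilin (h : OpLe X K) (v : ι → ℝ) (w : κ → ℝ) :
    |v ⬝ᵥ (X *ᵥ w)| ≤ K * √(nsq v) * √(nsq w) := by
  refine (abs_dot_le v _).trans ?_
  calc √(nsq v) * √(nsq (X *ᵥ w)) ≤ √(nsq v) * √(K ^ 2 * nsq w) :=
        mul_le_mul_of_nonneg_left (Real.sqrt_le_sqrt (h.2 w)) (Real.sqrt_nonneg _)
    _ = K * √(nsq v) * √(nsq w) := by
        rw [Real.sqrt_mul (sq_nonneg K), Real.sqrt_sq h.1]; ring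

lemma OpLe.quad {X : Matrix ι ι ℝ} (h : OpLe X K) (v : ι → ℝ) : |v ⬝ᵥ (X *ᵥ v)| ≤ K * nsq v := by
  have := h.bilin v v
  rwa [mul_assoc, Real.mul_self_sqrt (nsq_nonneg v)] at this

lemma opLe_of_bilin (hK : 0 ≤ K)
    (h : ∀ v w, |v ⬝ᵥ (X *ᵥ w)| ≤ K * √(nsq v) * √(nsq w)) : OpLe X K := by
  refine ⟨hK, fun w => ?_⟩
  have h1 := (le_abs_self _).trans (h (X *ᵥ w) w)
  rw [← nsq_eq_dot] at h1
  set a := √(nsq (X *ᵥ w))
  have ha : a * a = nsq (X *ᵥ w) := Real.mul_self_sqrt (nsq_nonneg _)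
  have hb : √(nsq w) * √(nsq w) = nsq w := Real.mul_self_sqrt (nsq_nonneg w)
  rcases (Real.sqrt_nonneg (nsq (X *ᵥ w))).eq_or_lt with h0 | h0
  · rw [← ha, show a = 0 from h0.symm]
    simpa using mul_nonneg (sq_nonneg K) (nsq_nonneg w)
  · have h2 : a ≤ K * √(nsq w) := by
      refine le_of_mul_le_mul_left ?_ h0
      rw [ha]; linarith
    calc nsq (X *ᵥ w) = a * a := ha.symm
      _ ≤ (K * √(nsq w)) * (K * √(nsq w)) := mul_le_mul h2 h2 h0.le (by positivity)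
      _ = K ^ 2 * nsq w := by rw [mul_mul_mul_comm, hb]; ring

lemma OpLe.mono (h : OpLe X K) (hKL : K ≤ L) : OpLe X L :=
  ⟨h.1.trans hKL, fun w => (h.2 w).trans
    (mul_le_mul_of_nonneg_right (pow_le_pow_left₀ h.1 hKL 2) (nsq_nonneg w))⟩

lemma opLe_zero (hK : 0 ≤ K) : OpLe (0 : Matrix ι κ ℝ) K :=
  ⟨hK, fun w => by simpa [nsq] using mul_nonneg (sq_nonneg K) (nsq_nonneg w)⟩

lemma OpLe.add (hX : OpLe X K) (hY : OpLe Y L) : OpLe (X + Y) (K + L) := by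
  refine opLe_of_bilin (add_nonneg hX.1 hY.1) fun v w => ?_
  rw [Matrix.add_mulVec, dotProduct_add, add_mul, add_mul]
  exact (abs_add_le _ _).trans (add_le_add (hX.bilin v w) (hY.bilin v w))

lemma OpLe.smul (hX : OpLe X K) (c : ℝ) : OpLe (c • X) (|c| * K) :=
  ⟨mul_nonneg (abs_nonneg c) hX.1, fun w => by
    rw [Matrix.smul_mulVec, nsq_smul, mul_pow, sq_abs, mul_assoc]
    exact mul_le_mul_of_nonneg_left (hX.2 w) (sq_nonneg c)⟩

lemma OpLe.neg (hX : OpLe X K) : OpLe (-X) K := by simpa using hX.smul (-1)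

lemma OpLe.sub (hX : OpLe X K) (hY : OpLe Y L) : OpLe (X - Y) (K + L) := by
  simpa [sub_eq_add_neg] using hX.add hY.neg

lemma OpLe.sum {α : Type*} (s : Finset α) {Z : α → Matrix ι κ ℝ} {k : α → ℝ}
    (h : ∀ a ∈ s, OpLe (Z a) (k a)) : OpLe (∑ a ∈ s, Z a) (∑ a ∈ s, k a) := by
  classical
  induction s using Finset.induction with
  | empty => simpa using opLe_zero le_rfl
  | insert a s ha ih =>
    rw [Finset.sum_insert ha, Finset.sum_insert ha]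
    exact (h a (mem_insert_self a s)).add (ih fun b hb => h b (mem_insert_of_mem hb))

lemma OpLe.mul {Z : Matrix κ μ ℝ} (hX : OpLe X K) (hZ : OpLe Z L) : OpLe (X * Z) (K * L) :=
  ⟨mul_nonneg hX.1 hZ.1, fun w => by
    rw [← Matrix.mulVec_mulVec, mul_pow, mul_assoc]
    exact (hX.2 _).trans (mul_le_mul_of_nonneg_left (hZ.2 w) (sq_nonneg K))⟩

lemma OpLe.transpose (hX : OpLe X K) : OpLe Xᵀ K := by
  refine opLe_of_bilin hX.1 fun v w => ?_
  rw [Matrix.mulVec_transpose, dotProduct_comm, ← Matrix.dotProduct_mulVec, mul_right_comm]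
  exact hX.bilin w v

lemma opLe_diagonal [DecidableEq ι] {d : ι → ℝ} (hK : 0 ≤ K) (hd : ∀ i, |d i| ≤ K) :
    OpLe (Matrix.diagonal d) K :=
  ⟨hK, fun w => by
    simp only [nsq, Matrix.mulVec_diagonal, mul_pow, mul_sum]
    exact sum_le_sum fun i _ =>
      mul_le_mul_of_nonneg_right (sq_le_sq' (abs_le.1 (hd i)).1 (abs_le.1 (hd i)).2) (sq_nonneg _)⟩

lemma opLe_one [DecidableEq ι] : OpLe (1 : Matrix ι ι ℝ) 1 :=
  ⟨zero_le_one, fun w => by simp⟩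

lemma opLe_rankOne (u : ι → ℝ) (v : κ → ℝ) :
    OpLe (Matrix.of fun i j => u i * v j) (√(nsq u) * √(nsq v)) := by
  refine ⟨by positivity, fun w => ?_⟩
  have e : (Matrix.of fun i j => u i * v j) *ᵥ w = (v ⬝ᵥ w) • u := by
    funext i
    simp only [Matrix.mulVec, dotProduct, Matrix.of_apply, Pi.smul_apply, smul_eq_mul, Finset.sum_mul]
    exact sum_congr rfl fun j _ => by ring
  rw [e, nsq_smul, mul_pow, Real.sq_sqrt (nsq_nonneg u), Real.sq_sqrt (nsq_nonneg v)]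
  nlinarith [nsq_nonneg u,
    show (v ⬝ᵥ w) ^ 2 ≤ nsq v * nsq w from sum_mul_sq_le_sq_mul_sq univ v w]

lemma OpLe.col (hX : OpLe X K) (j : κ) : ∑ i, X i j ^ 2 ≤ K ^ 2 := by
  classical
  have h := hX.2 (Pi.single j 1)
  rw [Matrix.mulVec_single_one, show nsq (Pi.single j (1 : ℝ) : κ → ℝ) = 1 by
    simp [nsq, Pi.single_apply], mul_one] at h
  exact h

lemma OpLe.row (hX : OpLe X K) (i : ι) : ∑ j, X i j ^ 2 ≤ K ^ 2 := hX.transpose.col i

lemma OpLe.entry (hX : OpLe X K) (i : ι) (j : κ) : |X i j| ≤ K :=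
  abs_le_of_sq_le_sq ((single_le_sum (fun k _ => sq_nonneg (X k j)) (mem_univ i)).trans (hX.col j)) hX.1

/-! Schur products -/

lemma opLe_hadamard_of_row_col {r c : ℝ} (hr : 0 ≤ r) (hc : 0 ≤ c) (hX : ∀ i, ∑ j, X i j ^ 2 ≤ r ^ 2)
    (hY : ∀ j, ∑ i, Y i j ^ 2 ≤ c ^ 2) : OpLe (X ⊙ Y) (r * c) := by
  refine opLe_of_bilin (mul_nonneg hr hc) fun v w => ?_
  have e : v ⬝ᵥ ((X ⊙ Y) *ᵥ w) =
      (fun p : ι × κ => v p.1 * X p.1 p.2) ⬝ᵥ fun p : ι × κ => Y p.1 p.2 * w p.2 := by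
    simp only [dotProduct, Matrix.mulVec, Matrix.hadamard_apply, mul_sum, Fintype.sum_prod_type]
    exact sum_congr rfl fun i _ => sum_congr rfl fun j _ => by ring
  have h1 : nsq (fun p : ι × κ => v p.1 * X p.1 p.2) ≤ r ^ 2 * nsq v := by
    simp only [nsq, mul_pow, Fintype.sum_prod_type]
    rw [mul_sum]
    exact sum_le_sum fun i _ => by
      rw [← mul_sum, mul_comm (r ^ 2)]; exact mul_le_mul_of_nonneg_left (hX i) (sq_nonneg _)
  have h2 : nsq (fun p : ι × κ => Y p.1 p.2 * w p.2) ≤ c ^ 2 * nsq w := by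
    simp only [nsq, mul_pow, Fintype.sum_prod_type_right]
    rw [mul_sum]
    exact sum_le_sum fun j _ => by
      rw [← sum_mul]; exact mul_le_mul_of_nonneg_right (hY j) (sq_nonneg _)
  rw [e]
  refine (abs_dot_le _ _).trans ((mul_le_mul (Real.sqrt_le_sqrt h1) (Real.sqrt_le_sqrt h2)
    (Real.sqrt_nonneg _) (Real.sqrt_nonneg _)).trans_eq ?_)
  rw [Real.sqrt_mul (sq_nonneg r), Real.sqrt_mul (sq_nonneg c), Real.sqrt_sq hr, Real.sqrt_sq hc]
  ring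

lemma OpLe.hadamard (hX : OpLe X K) (hY : OpLe Y L) : OpLe (X ⊙ Y) (K * L) :=
  opLe_hadamard_of_row_col hX.1 hY.1 hX.row hY.col

lemma OpLe.hadamard_gram {P : Matrix ι κ ℝ} {B : μ → ι → ℝ} {C : μ → κ → ℝ} {M : ℝ} (hX : OpLe X K)
    (hM : 0 ≤ M) (hP : ∀ i j, P i j = ∑ l, B l i * C l j) (hB : ∀ i, ∑ l, B l i ^ 2 ≤ M)
    (hC : ∀ j, ∑ l, C l j ^ 2 ≤ M) : OpLe (X ⊙ P) (K * M) := by
  refine opLe_of_bilin (mul_nonneg hX.1 hM) fun v w => ?_
  have e : v ⬝ᵥ ((X ⊙ P) *ᵥ w) = ∑ l, (fun i => v i * B l i) ⬝ᵥ (X *ᵥ fun j => w j * C l j) := by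
    simp only [dotProduct, Matrix.mulVec, Matrix.hadamard_apply, hP, mul_sum, sum_mul]
    rw [eq_comm, Finset.sum_comm]
    refine sum_congr rfl fun i _ => ?_
    rw [Finset.sum_comm]
    exact sum_congr rfl fun j _ => sum_congr rfl fun l _ => by ring
  set a := fun l => √(nsq fun i => v i * B l i)
  set b := fun l => √(nsq fun j => w j * C l j)
  have ha : ∑ l, a l ^ 2 ≤ M * nsq v := by
    simp only [show ∀ l, a l ^ 2 = nsq (fun i => v i * B l i) from fun l => Real.sq_sqrt (nsq_nonneg _)]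
    simp only [nsq, mul_pow]
    rw [Finset.sum_comm, mul_sum]
    exact sum_le_sum fun i _ => by
      rw [← mul_sum, mul_comm M]; exact mul_le_mul_of_nonneg_left (hB i) (sq_nonneg _)
  have hb : ∑ l, b l ^ 2 ≤ M * nsq w := by
    simp only [show ∀ l, b l ^ 2 = nsq (fun j => w j * C l j) from fun l => Real.sq_sqrt (nsq_nonneg _)]
    simp only [nsq, mul_pow]
    rw [Finset.sum_comm, mul_sum]
    exact sum_le_sum fun i _ => by
      rw [← mul_sum, mul_comm M]; exact mul_le_mul_of_nonneg_left (hC i) (sq_nonneg _)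
  rw [e]
  calc |∑ l, (fun i => v i * B l i) ⬝ᵥ (X *ᵥ fun j => w j * C l j)|
      ≤ ∑ l, K * (a l * b l) := (abs_sum_le_sum_abs _ _).trans
        (sum_le_sum fun l _ => (hX.bilin _ _).trans_eq (mul_assoc _ _ _))
    _ = K * ∑ l, a l * b l := (mul_sum _ _ _).symm
    _ ≤ K * (√(M * nsq v) * √(M * nsq w)) := mul_le_mul_of_nonneg_left
        ((Real.sum_mul_le_sqrt_mul_sqrt univ a b).trans (mul_le_mul (Real.sqrt_le_sqrt ha)
          (Real.sqrt_le_sqrt hb) (Real.sqrt_nonneg _) (Real.sqrt_nonneg _))) hX.1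
    _ = K * M * √(nsq v) * √(nsq w) := by
        rw [Real.sqrt_mul hM, Real.sqrt_mul hM]
        linear_combination K * √(nsq v) * √(nsq w) * Real.mul_self_sqrt hM

lemma OpLe.hadamard_posSemidef {X P : Matrix ι ι ℝ} {M : ℝ} (hX : OpLe X K) (hM : 0 ≤ M)
    (hP : P.PosSemidef) (hd : ∀ i, P i i ≤ M) : OpLe (X ⊙ P) (K * M) := by
  obtain ⟨m, B, rfl⟩ := Matrix.posSemidef_iff_eq_sum_vecMulVec.1 hP
  have e : ∀ i j, (∑ l, Matrix.vecMulVec (B l) (star (B l))) i j = ∑ l, B l i * B l j := fun i j => by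
    simp [Matrix.sum_apply, Matrix.vecMulVec_apply]
  have h : ∀ i, ∑ l, B l i ^ 2 ≤ M := fun i => by
    refine le_trans (le_of_eq ?_) (hd i)
    rw [e]; simp [sq]
  exact hX.hadamard_gram hM e h h

lemma OpLe.hadamard_pow {P : Matrix ι κ ℝ} (hP : OpLe P K) (k : ℕ) :
    OpLe (Matrix.of fun i j => P i j ^ (k + 1)) (K ^ (k + 1)) := by
  induction k with
  | zero =>
    rw [show (Matrix.of fun i j => P i j ^ (0 + 1)) = P by ext i j; simp, zero_add, pow_one]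
    exact hP
  | succ k ih =>
    rw [pow_succ K, show (Matrix.of fun i j => P i j ^ (k + 1 + 1)) =
      (Matrix.of fun i j => P i j ^ (k + 1)) ⊙ P by ext i j; simp [pow_succ]]
    exact ih.hadamard hP

lemma hasSum_exp_sub_one (x : ℝ) :
    HasSum (fun k : ℕ => x ^ (k + 1) / (k + 1).factorial) (Real.exp x - 1) := by
  have h : HasSum (fun k : ℕ => x ^ k / k.factorial) (Real.exp x) := by
    rw [Real.exp_eq_exp_ℝ]; exact NormedSpace.expSeries_div_hasSum_exp x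
  simpa using (hasSum_nat_add_iff' 1).2 h

lemma OpLe.exp_sub_one {P : Matrix ι κ ℝ} (hP : OpLe P K) :
    OpLe (Matrix.of fun i j => Real.exp (P i j) - 1) (Real.exp K - 1) := by
  refine opLe_of_bilin (sub_nonneg.2 (Real.one_le_exp hP.1)) fun v w => ?_
  set c := √(nsq v) * √(nsq w)
  set T := fun k : ℕ => v ⬝ᵥ ((Matrix.of fun i j => P i j ^ (k + 1)) *ᵥ w) / (k + 1).factorial
  have hT : HasSum T (v ⬝ᵥ ((Matrix.of fun i j => Real.exp (P i j) - 1) *ᵥ w)) := by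
    simp only [T, dotProduct, Matrix.mulVec, Matrix.of_apply, mul_sum, sum_div]
    refine hasSum_sum fun i _ => hasSum_sum fun j _ => ?_
    exact (((hasSum_exp_sub_one (P i j)).mul_right (w j)).mul_left (v i)).congr_fun fun k => by ring
  have hle : ∀ k, |T k| ≤ K ^ (k + 1) / (k + 1).factorial * c := fun k => by
    simp only [T, c]
    rw [abs_div, Nat.abs_cast, div_mul_eq_mul_div, ← mul_assoc]
    exact div_le_div_of_nonneg_right ((hP.hadamard_pow k).bilin v w) (by positivity)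
  have hS := (hasSum_exp_sub_one K).mul_right c
  rw [mul_assoc, abs_le]
  constructor
  · exact hasSum_le (fun k => (neg_le_neg (hle k)).trans (neg_abs_le _)) hS.neg hT
  · exact hasSum_le (fun k => (le_abs_self _).trans (hle k)) hT hS

/-! Frobenius norm -/

lemma fsq_transpose (X : Matrix ι κ ℝ) : fsq Xᵀ = fsq X := Finset.sum_comm

lemma fsq_diagonal [DecidableEq ι] (d : ι → ℝ) : fsq (Matrix.diagonal d) = nsq d :=
  sum_congr rfl fun i _ => by simp [Matrix.diagonal_apply]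

lemma fsq_smul (c : ℝ) (X : Matrix ι κ ℝ) : fsq (c • X) = c ^ 2 * fsq X := by
  simp only [fsq_eq, ← nsq_smul]; rfl

lemma OpLe.fsq_mul_le {Z : Matrix κ μ ℝ} (hX : OpLe X K) : fsq (X * Z) ≤ K ^ 2 * fsq Z := by
  calc fsq (X * Z) = ∑ j, nsq (X *ᵥ fun k => Z k j) := Finset.sum_comm
    _ ≤ ∑ j, K ^ 2 * nsq (fun k => Z k j) := sum_le_sum fun j _ => hX.2 _
    _ = K ^ 2 * fsq Z := by rw [← mul_sum]; congr 1; exact Finset.sum_comm

lemma fsq_mul_le_right {Z : Matrix κ μ ℝ} (hZ : OpLe Z K) (X : Matrix ι κ ℝ) :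
    fsq (X * Z) ≤ K ^ 2 * fsq X := by
  rw [← fsq_transpose, Matrix.transpose_mul]
  exact hZ.transpose.fsq_mul_le.trans_eq (by rw [fsq_transpose])

/-- `|A diag(d) B|_F ≤ |A| |B| |d|` -/
lemma fsq_sandwich [DecidableEq κ] {B : Matrix κ μ ℝ} (hX : OpLe X K) (hB : OpLe B L) (d : κ → ℝ) :
    fsq (X * Matrix.diagonal d * B) ≤ (K * L) ^ 2 * nsq d := by
  refine (fsq_mul_le_right hB _).trans
    ((mul_le_mul_of_nonneg_left hX.fsq_mul_le (sq_nonneg L)).trans_eq ?_)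
  rw [fsq_diagonal]; ring

lemma fsq_hadamard_le {M : ℝ} (hX : ∀ i j, |X i j| ≤ M) (Y : Matrix ι κ ℝ) :
    fsq (X ⊙ Y) ≤ M ^ 2 * fsq Y := by
  simp only [fsq, mul_sum, Matrix.hadamard_apply, mul_pow]
  exact sum_le_sum fun i _ => sum_le_sum fun j _ =>
    mul_le_mul_of_nonneg_right (sq_le_sq' (abs_le.1 (hX i j)).1 (abs_le.1 (hX i j)).2) (sq_nonneg _)

lemma OpLe.fsq_le (hX : OpLe X K) : fsq X ≤ Fintype.card κ * K ^ 2 := by
  rw [fsq, Finset.sum_comm]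
  exact (sum_le_sum fun j _ => hX.col j).trans_eq (by simp)

lemma opLe_sqrt_fsq (X : Matrix ι κ ℝ) : OpLe X √(fsq X) :=
  ⟨Real.sqrt_nonneg _, fun w => by
    rw [Real.sq_sqrt (fsq_nonneg X), fsq, sum_mul]
    exact sum_le_sum fun i _ => sum_mul_sq_le_sq_mul_sq univ _ w⟩

/-! Row sums and symmetric matrices -/

/-- Schur test -/
lemma opLe_of_abs_sums {R C : ℝ} (hR : 0 ≤ R) (hC : 0 ≤ C) (hr : ∀ i, ∑ j, |X i j| ≤ R)
    (hc : ∀ j, ∑ i, |X i j| ≤ C) : OpLe X √(R * C) := by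
  refine ⟨Real.sqrt_nonneg _, fun w => ?_⟩
  rw [Real.sq_sqrt (mul_nonneg hR hC)]
  have h1 : ∀ i, (X *ᵥ w) i ^ 2 ≤ R * ∑ j, |X i j| * w j ^ 2 := fun i => by
    refine le_trans ?_ (mul_le_mul_of_nonneg_right (hr i) (by positivity))
    refine sum_sq_le_sum_mul_sum_of_sq_le_mul univ (fun j _ => abs_nonneg _)
      (fun j _ => by positivity) fun j _ => le_of_eq ?_
    rw [mul_pow, ← mul_assoc, abs_mul_abs_self, ← sq]
  calc nsq (X *ᵥ w) ≤ ∑ i, R * ∑ j, |X i j| * w j ^ 2 := sum_le_sum fun i _ => h1 i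
    _ = R * ∑ j, (∑ i, |X i j|) * w j ^ 2 := by rw [← mul_sum, Finset.sum_comm]; simp only [sum_mul]
    _ ≤ R * ∑ j, C * w j ^ 2 := mul_le_mul_of_nonneg_left
        (sum_le_sum fun j _ => mul_le_mul_of_nonneg_right (hc j) (sq_nonneg _)) hR
    _ = R * C * nsq w := by rw [← mul_sum, mul_assoc]; rfl

variable {S T : Matrix ι ι ℝ}

lemma opLe_of_symm_abs_sums {R : ℝ} (hR : 0 ≤ R) (hS : S.IsSymm) (hr : ∀ i, ∑ j, |S i j| ≤ R) :
    OpLe S R := by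
  have h := opLe_of_abs_sums hR hR hr fun j => by
    simpa only [hS.apply j] using hr j
  rwa [Real.sqrt_mul_self hR] at h

/-- a symmetric matrix is bounded by its quadratic form -/
lemma opLe_of_quad (hK : 0 ≤ K) (hS : S.IsSymm) (h : ∀ v, |v ⬝ᵥ (S *ᵥ v)| ≤ K * nsq v) : OpLe S K := by
  refine ⟨hK, fun w => ?_⟩
  set u := S *ᵥ w
  have key : ∀ t : ℝ, t * nsq u ≤ K / 2 * (t ^ 2 * nsq u + nsq w) := by
    intro t
    have h1 := (abs_le.1 (h (t • u + w))).2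
    have h2 := (abs_le.1 (h (t • u - w))).1
    have e : w ⬝ᵥ (S *ᵥ u) = nsq u := by
      rw [nsq_eq_dot, Matrix.dotProduct_mulVec, ← Matrix.mulVec_transpose, hS.eq]
    simp only [nsq_eq_dot, Matrix.mulVec_add, Matrix.mulVec_sub, Matrix.mulVec_smul, add_dotProduct,
      sub_dotProduct, dotProduct_add, dotProduct_sub, smul_dotProduct, dotProduct_smul, smul_eq_mul,
      dotProduct_comm w u] at h1 h2 e ⊢
    have e2 : u ⬝ᵥ (S *ᵥ w) = u ⬝ᵥ u := rfl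
    rw [e, e2] at h1 h2
    linarith
  rcases hK.eq_or_lt with rfl | hpos
  · have := key 1
    nlinarith [nsq_nonneg w, nsq_nonneg u]
  · have := mul_le_mul_of_nonneg_left (key (1 / K)) (show (0:ℝ) ≤ 2 * K by positivity)
    field_simp at this
    nlinarith

lemma coercive_mulVec {η : ℝ} (hη : 0 < η) (h : ∀ v, η * nsq v ≤ v ⬝ᵥ (S *ᵥ v)) (w : ι → ℝ) :
    η ^ 2 * nsq w ≤ nsq (S *ᵥ w) := by
  have h1 := ((h w).trans (le_abs_self _)).trans (abs_dot_le _ _)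
  have h2 := mul_le_mul h1 h1 (mul_nonneg hη.le (nsq_nonneg w)) (by positivity)
  rw [mul_mul_mul_comm (√(nsq w)), Real.mul_self_sqrt (nsq_nonneg _),
    Real.mul_self_sqrt (nsq_nonneg _)] at h2
  rcases (nsq_nonneg w).eq_or_lt with h0 | h0
  · rw [← h0, mul_zero]; exact nsq_nonneg _
  · nlinarith

lemma isUnit_det_of_coercive [DecidableEq ι] {η : ℝ} (hη : 0 < η)
    (h : ∀ v, η * nsq v ≤ v ⬝ᵥ (S *ᵥ v)) : IsUnit S.det := by
  rw [← Matrix.isUnit_iff_isUnit_det, ← Matrix.mulVec_injective_iff_isUnit]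
  intro v w hvw
  have h0 := coercive_mulVec hη h (v - w)
  rw [Matrix.mulVec_sub, hvw, sub_self] at h0
  refine sub_eq_zero.1 (eq_zero_of_nsq ?_)
  simp [nsq] at h0 ⊢
  nlinarith [pow_pos hη 2]

lemma opLe_inv_of_coercive [DecidableEq ι] {η : ℝ} (hη : 0 < η)
    (h : ∀ v, η * nsq v ≤ v ⬝ᵥ (S *ᵥ v)) : OpLe S⁻¹ (1 / η) := by
  refine ⟨by positivity, fun w => ?_⟩
  have h1 := coercive_mulVec hη h (S⁻¹ *ᵥ w)
  rw [Matrix.mulVec_mulVec, Matrix.mul_nonsing_inv _ (isUnit_det_of_coercive hη h),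
    Matrix.one_mulVec] at h1
  rw [div_pow, one_pow, div_mul_eq_mul_div, one_mul, le_div_iff₀ (pow_pos hη 2)]
  linarith

lemma coercive_of_sub {η δ : ℝ} (h : ∀ v, η * nsq v ≤ v ⬝ᵥ (S *ᵥ v)) (hT : OpLe (T - S) δ)
    (v : ι → ℝ) : (η - δ) * nsq v ≤ v ⬝ᵥ (T *ᵥ v) := by
  have h1 := (abs_le.1 (hT.quad v)).1
  rw [Matrix.sub_mulVec, dotProduct_sub] at h1
  nlinarith [h v]

lemma inv_sub_inv_eq [DecidableEq ι] (hS : IsUnit S.det) (hT : IsUnit T.det) :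
    S⁻¹ - T⁻¹ = S⁻¹ * (T - S) * T⁻¹ := by
  rw [Matrix.mul_sub, Matrix.sub_mul, Matrix.nonsing_inv_mul _ hS, Matrix.one_mul, Matrix.mul_assoc,
    Matrix.mul_nonsing_inv _ hT, Matrix.mul_one]

lemma opLe_inv_sub_inv [DecidableEq ι] {η δ : ℝ} (hη : 0 < η) (hS : ∀ v, η * nsq v ≤ v ⬝ᵥ (S *ᵥ v))
    (hT : ∀ v, η * nsq v ≤ v ⬝ᵥ (T *ᵥ v)) (h : OpLe (T - S) δ) : OpLe (S⁻¹ - T⁻¹) (δ / η ^ 2) := by
  rw [inv_sub_inv_eq (isUnit_det_of_coercive hη hS) (isUnit_det_of_coercive hη hT),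
    show δ / η ^ 2 = 1 / η * δ * (1 / η) by ring]
  exact ((opLe_inv_of_coercive hη hS).mul h).mul (opLe_inv_of_coercive hη hT)

lemma fsq_inv_sub_inv [DecidableEq ι] {η : ℝ} (hη : 0 < η) (hS : ∀ v, η * nsq v ≤ v ⬝ᵥ (S *ᵥ v))
    (hT : ∀ v, η * nsq v ≤ v ⬝ᵥ (T *ᵥ v)) : fsq (S⁻¹ - T⁻¹) ≤ fsq (T - S) / η ^ 4 := by
  rw [inv_sub_inv_eq (isUnit_det_of_coercive hη hS) (isUnit_det_of_coercive hη hT)]
  refine (fsq_mul_le_right (opLe_inv_of_coercive hη hT) _).trans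
    ((mul_le_mul_of_nonneg_left (opLe_inv_of_coercive hη hS).fsq_mul_le (sq_nonneg _)).trans_eq ?_)
  ring

end Vale.Agent.P150.Fast.OpNorm
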