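import Vale.Agent.P150.GaussCalc

/-! Gaussian Poincaré inequality by interpolation along rotations. -/

open MeasureTheory ProbabilityTheory

namespace Vale.Agent.P150.Poincare

variable {ι : Type*} [Fintype ι]

lemma map_comb_one {a b : ℝ} (hab : a ^ 2 + b ^ 2 = 1) :
    ((gaussianReal 0 1).prod (gaussianReal 0 1)).map (fun p : ℝ × ℝ => a * p.1 + b * p.2) = gaussianReal 0 1 := by
  rw [show (fun p : ℝ × ℝ => a * p.1 + b * p.2) = (fun p : ℝ × ℝ => p.1 + p.2) ∘ Prod.map (a * ·) (b * ·) from rfl,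
    ← Measure.map_map (by fun_prop) (by fun_prop), ← Measure.map_prod_map _ _ (by fun_prop) (by fun_prop),
    gaussianReal_map_const_mul, gaussianReal_map_const_mul]
  show Measure.conv _ _ = _
  rw [gaussianReal_conv_gaussianReal]
  simp only [mul_zero, add_zero, mul_one]
  congr 1
  apply NNReal.coe_injective
  simpa using hab

/-- a point of the rotated copy -/
noncomputable def comb (θ : ℝ) (w : ι ⊕ ι → ℝ) : ι → ℝ :=
  fun k => Real.cos θ * w (Sum.inl k) + Real.sin θ * w (Sum.inr k)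

lemma map_comb (θ : ℝ) : MeasurePreserving (comb θ) (gauss (ι ⊕ ι)) (gauss ι) := by
  have hm : Measurable (comb (ι := ι) θ) := by unfold comb; fun_prop
  refine ⟨hm, ?_⟩
  set a := Real.cos θ
  set b := Real.sin θ
  have h1 : MeasurePreserving (MeasurableEquiv.sumPiEquivProdPi fun _ : ι ⊕ ι => ℝ) (gauss (ι ⊕ ι))
      ((gauss ι).prod (gauss ι)) :=
    measurePreserving_sumPiEquivProdPi fun _ : ι ⊕ ι => gaussianReal 0 1
  have h2 : MeasurePreserving (MeasurableEquiv.arrowProdEquivProdArrow ℝ ℝ ι).symm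
      ((gauss ι).prod (gauss ι)) (Measure.pi fun _ : ι => (gaussianReal 0 1).prod (gaussianReal 0 1)) :=
    (measurePreserving_arrowProdEquivProdArrow ℝ ℝ ι (fun _ => gaussianReal 0 1) fun _ => gaussianReal 0 1).symm
  have h3 : MeasurePreserving (fun z : ι → ℝ × ℝ => fun k => a * (z k).1 + b * (z k).2)
      (Measure.pi fun _ : ι => (gaussianReal 0 1).prod (gaussianReal 0 1)) (gauss ι) := by
    refine measurePreserving_pi _ _ fun _ => ⟨by fun_prop, map_comb_one ?_⟩
    exact Real.cos_sq_add_sin_sq θ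
  exact ((h3.comp h2).comp h1).map_eq

omit [Fintype ι] in
lemma continuous_comb (θ : ℝ) : Continuous (comb (ι := ι) θ) := by unfold comb; fun_prop

lemma l1_sum (w : ι ⊕ ι → ℝ) : l1 (fun k => w (Sum.inl k)) + l1 (fun k => w (Sum.inr k)) = l1 w := by
  simp only [l1, Fintype.sum_sum_type]

lemma l1_comb (θ : ℝ) (w : ι ⊕ ι → ℝ) : l1 (comb θ w) ≤ l1 w := by
  rw [← l1_sum, l1, l1, l1, ← Finset.sum_add_distrib]
  refine Finset.sum_le_sum fun k _ => (abs_add_le _ _).trans ?_
  rw [abs_mul, abs_mul]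
  exact add_le_add (mul_le_of_le_one_left (abs_nonneg _) (Real.abs_cos_le_one θ))
    (mul_le_of_le_one_left (abs_nonneg _) (Real.abs_sin_le_one θ))

lemma l1_left (w : ι ⊕ ι → ℝ) : l1 (fun k => w (Sum.inl k)) ≤ l1 w := by
  rw [← l1_sum]; exact le_add_of_nonneg_right (l1_nonneg _)

/-- **Gaussian Poincaré inequality.** `D` is the gradient and `DD` the diagonal of the Hessian. -/
theorem poincare {f : (ι → ℝ) → ℝ} {D DD : (ι → ℝ) → ι → ℝ} {C M : ℝ} (hM : 0 ≤ M)
    (hf : ∀ z, HasFDerivAt f (∑ k, D z k • (ContinuousLinearMap.proj k : (ι → ℝ) →L[ℝ] ℝ)) z)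
    (hD : ∀ k, Continuous fun z => D z k) (hDD : ∀ k, Continuous fun z => DD z k)
    [DecidableEq ι] (hd : ∀ z k t, HasDerivAt (fun s => D (Function.update z k s) k) (DD (Function.update z k t) k) t)
    (bf : ∀ z, |f z| ≤ C * Real.exp (M * l1 z)) (bD : ∀ z k, |D z k| ≤ C * Real.exp (M * l1 z))
    (bDD : ∀ z k, |DD z k| ≤ C * Real.exp (M * l1 z)) :
    ∫ z, f z ^ 2 ∂gauss ι - (∫ z, f z ∂gauss ι) ^ 2 ≤ ∫ z, ∑ k, D z k ^ 2 ∂gauss ι := by
  have hC : 0 ≤ C := nonneg_of_mul_nonneg_left ((abs_nonneg _).trans (bf 0)) (Real.exp_pos _)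
  have hfc : Continuous f := continuous_iff_continuousAt.2 fun z => (hf z).continuousAt
  have bsq : ∀ {u v : ℝ} (z z' : ι → ℝ) (w : ι ⊕ ι → ℝ), l1 z ≤ l1 w → l1 z' ≤ l1 w →
      |u| ≤ C * Real.exp (M * l1 z) → |v| ≤ C * Real.exp (M * l1 z') →
        |u * v| ≤ C ^ 2 * Real.exp (2 * M * l1 w) := by
    intro u v z z' w hz hz' hu hv
    rw [abs_mul, show 2 * M * l1 w = M * l1 w + M * l1 w by ring, Real.exp_add, sq, mul_mul_mul_comm]
    refine mul_le_mul (hu.trans ?_) (hv.trans ?_) (abs_nonneg _) (mul_nonneg hC (Real.exp_pos _).le) <;>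
      gcongr
  set P := fun w : ι ⊕ ι → ℝ => fun k => w (Sum.inl k) with hP
  have hPc : Continuous P := by simp only [hP]; fun_prop
  set ψ := fun θ => ∫ w, f (P w) * f (comb θ w) ∂gauss (ι ⊕ ι) with hψ
  set F' := fun (θ : ℝ) (w : ι ⊕ ι → ℝ) => f (P w) * ∑ k, D (comb θ w) k *
    (-Real.sin θ * w (Sum.inl k) + Real.cos θ * w (Sum.inr k)) with hF'
  have hc' : ∀ θ, Continuous (F' θ) := fun θ => by
    refine (hfc.comp hPc).mul (continuous_finsetSum _ fun k _ => ?_)
    exact ((hD k).comp (continuous_comb θ)).mul (by fun_prop)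
  have hdθ : ∀ θ w, HasDerivAt (fun u => f (P w) * f (comb u w)) (F' θ w) θ := by
    intro θ w
    have h1 : HasDerivAt (fun u => comb u w)
        (fun k => -Real.sin θ * w (Sum.inl k) + Real.cos θ * w (Sum.inr k)) θ :=
      hasDerivAt_pi.2 fun k => ((Real.hasDerivAt_cos θ).mul_const _).add ((Real.hasDerivAt_sin θ).mul_const _)
    refine (((hf (comb θ w)).comp_hasDerivAt θ h1).const_mul (f (P w))).congr_deriv ?_
    simp [hF', smul_eq_mul]
  have hb' : ∀ θ w, |F' θ w| ≤ C ^ 2 * Real.exp ((2 * M + 1) * l1 w) := by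
    intro θ w
    simp only [hF', Finset.mul_sum]
    refine (Finset.abs_sum_le_sum_abs _ _).trans ((Finset.sum_le_sum
      (g := fun k => C ^ 2 * Real.exp (2 * M * l1 w) * (|w (Sum.inl k)| + |w (Sum.inr k)|)) fun k _ => ?_).trans ?_)
    · rw [← mul_assoc, abs_mul]
      refine mul_le_mul (bsq _ _ w (l1_left w) (l1_comb θ w) (bf _) (bD _ k)) ?_ (abs_nonneg _) (by positivity)
      refine (abs_add_le _ _).trans ?_
      rw [abs_mul, abs_mul, abs_neg]
      exact add_le_add (mul_le_of_le_one_left (abs_nonneg _) (Real.abs_sin_le_one θ))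
        (mul_le_of_le_one_left (abs_nonneg _) (Real.abs_cos_le_one θ))
    · rw [← Finset.mul_sum, Finset.sum_add_distrib, add_mul, one_mul, Real.exp_add, mul_assoc]
      refine mul_le_mul_of_nonneg_left (mul_le_mul_of_nonneg_left ?_ (Real.exp_pos _).le) (sq_nonneg C)
      exact (l1_sum w).le.trans ((le_add_of_nonneg_right zero_le_one).trans (Real.add_one_le_exp _))
  have hderiv : ∀ θ, HasDerivAt ψ (∫ w, F' θ w ∂gauss (ι ⊕ ι)) θ := fun θ =>
    hasDerivAt_gauss_integral (F := fun u w => f (P w) * f (comb u w)) (C₀ := C ^ 2) (M₀ := 2 * M)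
      (fun u => (hfc.comp hPc).mul (hfc.comp (continuous_comb u))) hc'
      (fun w => bsq _ _ w (l1_left w) (l1_comb θ w) (bf _) (bf _)) (fun u _ w => hb' u w) hdθ
  -- integration by parts in both blocks
  have hmain : ∀ θ, ∫ w, F' θ w ∂gauss (ι ⊕ ι) =
      -Real.sin θ * ∑ k, ∫ w, D (P w) k * D (comb θ w) k ∂gauss (ι ⊕ ι) := by
    intro θ
    have hPk : ∀ k, Continuous fun w => D (P w) k := fun k => (hD k).comp hPc
    have hQk : ∀ k, Continuous fun w => D (comb θ w) k := fun k => (hD k).comp (continuous_comb θ)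
    have hRk : ∀ k, Continuous fun w => DD (comb θ w) k := fun k => (hDD k).comp (continuous_comb θ)
    have hfP : Continuous fun w => f (P w) := hfc.comp hPc
    have hB : ∀ {u : ℝ} {v : ℝ} {c : ℝ} (w : ι ⊕ ι → ℝ), |u| ≤ C ^ 2 * Real.exp (2 * M * l1 w) →
        |v| ≤ C ^ 2 * Real.exp (2 * M * l1 w) → |c| ≤ 1 → |u + c * v| ≤ 2 * C ^ 2 * Real.exp (2 * M * l1 w) := by
      intro u v c w hu hv hc
      refine (abs_add_le _ _).trans ?_
      rw [abs_mul]
      have := mul_le_of_le_one_left (abs_nonneg v) hc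
      linarith
    have b1 : ∀ k w, |f (P w) * D (comb θ w) k| ≤ C ^ 2 * Real.exp (2 * M * l1 w) := fun k w =>
      bsq _ _ w (l1_left w) (l1_comb θ w) (bf _) (bD _ k)
    have b2 : ∀ k w, |D (P w) k * D (comb θ w) k| ≤ C ^ 2 * Real.exp (2 * M * l1 w) := fun k w =>
      bsq _ _ w (l1_left w) (l1_comb θ w) (bD _ k) (bD _ k)
    have b3 : ∀ k w, |f (P w) * DD (comb θ w) k| ≤ C ^ 2 * Real.exp (2 * M * l1 w) := fun k w =>
      bsq _ _ w (l1_left w) (l1_comb θ w) (bf _) (bDD _ k)
    have up : ∀ {u : ℝ} (w : ι ⊕ ι → ℝ), |u| ≤ C ^ 2 * Real.exp (2 * M * l1 w) →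
        |u| ≤ 2 * C ^ 2 * Real.exp (2 * M * l1 w) := fun w hu => hu.trans (by
      have : 0 ≤ C ^ 2 * Real.exp (2 * M * l1 w) := by positivity
      linarith)
    have ibl : ∀ k, ∫ w, w (Sum.inl k) * (f (P w) * D (comb θ w) k) ∂gauss (ι ⊕ ι) =
        ∫ w, D (P w) k * D (comb θ w) k + Real.cos θ * (f (P w) * DD (comb θ w) k) ∂gauss (ι ⊕ ι) := by
      intro k
      refine gauss_ibp (Sum.inl k) (by positivity) (hfP.mul (hQk k))
        (((hPk k).mul (hQk k)).add (continuous_const.mul (hfP.mul (hRk k)))) (fun w => up w (b1 k w))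
        (fun w => hB w (b2 k w) (b3 k w) (Real.abs_cos_le_one θ)) fun w u => ?_
      have eP : ∀ s, P (Function.update w (Sum.inl k) s) = Function.update (P w) k s := fun s => by
        funext j; by_cases hj : j = k
        · subst hj; simp [hP]
        · simp [hP, Function.update_of_ne hj, Function.update_of_ne (show (Sum.inl j : ι ⊕ ι) ≠ Sum.inl k by simpa using hj)]
      have eQ : ∀ s, comb θ (Function.update w (Sum.inl k) s) =
          Function.update (comb θ w) k (Real.cos θ * s + Real.sin θ * w (Sum.inr k)) := fun s => by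
        funext j; by_cases hj : j = k
        · subst hj; simp [comb]
        · simp [comb, Function.update_of_ne hj, Function.update_of_ne (show (Sum.inl j : ι ⊕ ι) ≠ Sum.inl k by simpa using hj)]
      simp only [eP, eQ]
      have h1 : HasDerivAt (fun s => f (Function.update (P w) k s)) (D (Function.update (P w) k u) k) u := by
        refine ((hf _).comp_hasDerivAt u (hasDerivAt_update (P w) k u)).congr_deriv ?_
        simp [Pi.single_apply]
      have h2 : HasDerivAt (fun s => D (Function.update (comb θ w) k (Real.cos θ * s + Real.sin θ * w (Sum.inr k))) k)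
          (DD (Function.update (comb θ w) k (Real.cos θ * u + Real.sin θ * w (Sum.inr k))) k * Real.cos θ) u := by
        refine (hd (comb θ w) k _).comp u ?_
        simpa using ((hasDerivAt_id' u).const_mul (Real.cos θ)).add_const (Real.sin θ * w (Sum.inr k))
      exact (h1.mul h2).congr_deriv (by ring)
    have ibr : ∀ k, ∫ w, w (Sum.inr k) * (f (P w) * D (comb θ w) k) ∂gauss (ι ⊕ ι) =
        ∫ w, Real.sin θ * (f (P w) * DD (comb θ w) k) ∂gauss (ι ⊕ ι) := by
      intro k
      refine gauss_ibp (Sum.inr k) (by positivity) (hfP.mul (hQk k))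
        (continuous_const.mul (hfP.mul (hRk k))) (fun w => up w (b1 k w)) (fun w => ?_) fun w u => ?_
      · refine up w ?_
        rw [abs_mul]
        exact (mul_le_of_le_one_left (abs_nonneg _) (Real.abs_sin_le_one θ)).trans (b3 k w)
      · have eP : ∀ s, P (Function.update w (Sum.inr k) s) = P w := fun s => by
          funext j; simp [hP]
        have eQ : ∀ s, comb θ (Function.update w (Sum.inr k) s) =
            Function.update (comb θ w) k (Real.cos θ * w (Sum.inl k) + Real.sin θ * s) := fun s => by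
          funext j; by_cases hj : j = k
          · subst hj; simp [comb]
          · simp [comb, Function.update_of_ne hj, Function.update_of_ne (show (Sum.inr j : ι ⊕ ι) ≠ Sum.inr k by simpa using hj)]
        simp only [eP, eQ]
        have h2 : HasDerivAt (fun s => D (Function.update (comb θ w) k (Real.cos θ * w (Sum.inl k) + Real.sin θ * s)) k)
            (DD (Function.update (comb θ w) k (Real.cos θ * w (Sum.inl k) + Real.sin θ * u)) k * Real.sin θ) u := by
          refine (hd (comb θ w) k _).comp u ?_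
          simpa using ((hasDerivAt_id' u).const_mul (Real.sin θ)).const_add (Real.cos θ * w (Sum.inl k))
        exact (h2.const_mul (f (P w))).congr_deriv (by ring)
    have i1 : ∀ (j : ι ⊕ ι) k, Integrable (fun w => w j * (f (P w) * D (comb θ w) k)) (gauss (ι ⊕ ι)) := fun j k =>
      integrable_of_bound (C := C ^ 2) (M := 2 * M + 1) ((continuous_apply j).mul (hfP.mul (hQk k))) fun w => by
        rw [abs_mul, add_mul, one_mul, Real.exp_add, ← mul_assoc, mul_comm (|w j|)]
        exact mul_le_mul (b1 k w) ((abs_le_l1 w j).trans ((le_add_of_nonneg_right zero_le_one).trans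
          (Real.add_one_le_exp _))) (abs_nonneg _) (by positivity)
    have i2 : ∀ k, Integrable (fun w => D (P w) k * D (comb θ w) k) (gauss (ι ⊕ ι)) := fun k =>
      integrable_of_bound ((hPk k).mul (hQk k)) (b2 k)
    have i3 : ∀ k, Integrable (fun w => f (P w) * DD (comb θ w) k) (gauss (ι ⊕ ι)) := fun k =>
      integrable_of_bound (hfP.mul (hRk k)) (b3 k)
    have e : ∀ w, F' θ w = ∑ k, (-Real.sin θ * (w (Sum.inl k) * (f (P w) * D (comb θ w) k))
        + Real.cos θ * (w (Sum.inr k) * (f (P w) * D (comb θ w) k))) := fun w => by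
      simp only [hF', Finset.mul_sum]
      exact Finset.sum_congr rfl fun k _ => by ring
    simp only [e]
    rw [integral_finsetSum _ fun k _ => ((i1 _ k).const_mul _).fun_add ((i1 _ k).const_mul _), Finset.mul_sum]
    refine Finset.sum_congr rfl fun k _ => ?_
    rw [integral_add ((i1 _ k).const_mul _) ((i1 _ k).const_mul _), integral_const_mul, integral_const_mul,
      ibl k, ibr k, integral_add (i2 k) ((i3 k).const_mul _), integral_const_mul, integral_const_mul]
    ring
  set A := ∫ z, ∑ k, D z k ^ 2 ∂gauss ι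
  have iD : ∀ k, Integrable (fun z => D z k ^ 2) (gauss ι) := fun k =>
    integrable_of_bound (C := C ^ 2) (M := 2 * M) ((hD k).pow 2) fun z => by
      rw [abs_pow, show 2 * M * l1 z = M * l1 z + M * l1 z by ring, Real.exp_add, ← sq, ← mul_pow]
      exact pow_le_pow_left₀ (abs_nonneg _) (bD z k) 2
  have iDs : Integrable (fun z => ∑ k, D z k ^ 2) (gauss ι) := integrable_finsetSum _ fun k _ => iD k
  have hP0 : ∀ w : ι ⊕ ι → ℝ, comb 0 w = P w := fun w => by funext k; simp [comb, hP]
  have hcross : ∀ θ, ∑ k, ∫ w, D (P w) k * D (comb θ w) k ∂gauss (ι ⊕ ι) ≤ A := by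
    intro θ
    have hmarg : ∀ φ, ∀ k, Integrable (fun w => D (comb φ w) k ^ 2) (gauss (ι ⊕ ι)) ∧
        ∫ w, D (comb φ w) k ^ 2 ∂gauss (ι ⊕ ι) = ∫ z, D z k ^ 2 ∂gauss ι := fun φ k => by
      refine ⟨(map_comb φ).integrable_comp_of_integrable (iD k), ?_⟩
      conv_rhs => rw [← (map_comb φ).map_eq]
      exact (integral_map (map_comb φ).measurable.aemeasurable ((hD k).pow 2).aestronglyMeasurable).symm
    rw [show A = ∑ k, ∫ z, D z k ^ 2 ∂gauss ι from integral_finsetSum _ fun k _ => iD k]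
    refine Finset.sum_le_sum fun k _ => ?_
    obtain ⟨ip, ep⟩ := hmarg 0 k
    obtain ⟨iq, eq⟩ := hmarg θ k
    simp only [hP0] at ip ep
    calc ∫ w, D (P w) k * D (comb θ w) k ∂gauss (ι ⊕ ι)
        ≤ ∫ w, (D (P w) k ^ 2 + D (comb θ w) k ^ 2) / 2 ∂gauss (ι ⊕ ι) := by
          refine integral_mono (integrable_of_bound ((hD k).comp hPc |>.mul ((hD k).comp (continuous_comb θ)))
            fun w => bsq _ _ w (l1_left w) (l1_comb θ w) (bD _ k) (bD _ k)) ((ip.add iq).div_const 2) fun w => ?_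
          dsimp only
          linarith [two_mul_le_add_sq (D (P w) k) (D (comb θ w) k)]
      _ = _ := by rw [integral_div, integral_add ip iq, ep, eq]; ring
  -- monotone interpolation
  have hG : ∀ θ, HasDerivAt (fun u => ψ u - Real.cos u * A)
      ((∫ w, F' θ w ∂gauss (ι ⊕ ι)) - -Real.sin θ * A) θ := fun θ =>
    (hderiv θ).sub ((Real.hasDerivAt_cos θ).mul_const A)
  have hmono : MonotoneOn (fun u => ψ u - Real.cos u * A) (Set.Icc 0 (Real.pi / 2)) := by
    refine monotoneOn_of_deriv_nonneg (convex_Icc _ _) (fun θ _ => (hG θ).continuousAt.continuousWithinAt)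
      (fun θ _ => (hG θ).differentiableAt.differentiableWithinAt) fun θ hθ => ?_
    rw [(hG θ).deriv, hmain θ]
    rw [interior_Icc] at hθ
    have hs : 0 ≤ Real.sin θ := Real.sin_nonneg_of_nonneg_of_le_pi hθ.1.le (by linarith [Real.pi_pos, hθ.2])
    nlinarith [hcross θ]
  have hπ : (0 : ℝ) ≤ Real.pi / 2 := by positivity
  have h := hmono (Set.left_mem_Icc.2 hπ) (Set.right_mem_Icc.2 hπ) hπ
  simp only [Real.cos_zero, Real.cos_pi_div_two, one_mul, zero_mul, sub_zero] at h
  have e0 : ψ 0 = ∫ z, f z ^ 2 ∂gauss ι := by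
    simp only [hψ, hP0, ← sq]
    conv_rhs => rw [← (map_comb 0).map_eq]
    rw [integral_map (f := fun z => f z ^ 2) (map_comb 0).measurable.aemeasurable (hfc.pow 2).aestronglyMeasurable]
    simp only [hP0]
  have e1 : ψ (Real.pi / 2) = (∫ z, f z ∂gauss ι) ^ 2 := by
    have e : ∀ w : ι ⊕ ι → ℝ, comb (Real.pi / 2) w = fun k => w (Sum.inr k) := fun w => by
      funext k; simp [comb]
    have h1 : MeasurePreserving (MeasurableEquiv.sumPiEquivProdPi fun _ : ι ⊕ ι => ℝ) (gauss (ι ⊕ ι))
        ((gauss ι).prod (gauss ι)) :=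
      measurePreserving_sumPiEquivProdPi fun _ : ι ⊕ ι => gaussianReal 0 1
    simp only [hψ, e]
    rw [sq, ← integral_prod_mul, ← h1.integral_comp']
    rfl
  linarith

end Vale.Agent.P150.Poincare
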