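import Mathlib

/-! The explicit Stein kernel of the TAP step (part A6 of the fast-mixing route).
`ker 0 b h a` solves `b f' + b f tanh h - (h - a) f = tanh h - tanh a` in `h`, with all
derivatives in `(b, h, a)` expressed through the moment kernels `ker k`, which are bounded. -/

namespace Vale.Agent.P150.Fast.Stein

open MeasureTheory intervalIntegral Real Set
open scoped Interval

/-- the integrand -/
noncomputable def wgt (b u w : ℝ) : ℝ := Real.exp (b * (1 - w ^ 2) / 2 - u * w)

/-- moments of the integrand on `[-1, 1]` -/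
noncomputable def mom (k : ℕ) (b u : ℝ) : ℝ := ∫ w in (-1 : ℝ)..1, w ^ k * wgt b u w

/-- the moment kernels; `ker 0` is the Stein solution -/
noncomputable def ker (k : ℕ) (b h a : ℝ) : ℝ :=
  -mom k b (h - a) / (2 * Real.cosh a * Real.cosh h)

/-- the Stein solution -/
noncomputable def sol (b h a : ℝ) : ℝ := ker 0 b h a

/-- its derivative in `h` -/
noncomputable def solH (b h a : ℝ) : ℝ := -ker 1 b h a - Real.tanh h * ker 0 b h a

lemma wgt_pos (b u w : ℝ) : 0 < wgt b u w := Real.exp_pos _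

lemma wgt_le {b u w B U : ℝ} (hb : |b| ≤ B) (hu : |u| ≤ U) (hw : |w| ≤ 1) :
    wgt b u w ≤ Real.exp (B / 2 + U) := by
  apply Real.exp_le_exp.2
  have h1 : w ^ 2 ≤ 1 := (sq_le_one_iff_abs_le_one w).2 hw
  have h2 : -(u * w) ≤ U := (neg_le_abs _).trans (by
    rw [abs_mul]; exact (mul_le_of_le_one_right (abs_nonneg u) hw).trans hu)
  have h3 : b * (1 - w ^ 2) ≤ B := (le_abs_self _).trans (by
    rw [abs_mul, abs_of_nonneg (sub_nonneg.2 h1)]
    exact (mul_le_of_le_one_right (abs_nonneg b) (by nlinarith [sq_nonneg w])).trans hb)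
  linarith

lemma abs_le_one_of_mem {w : ℝ} (hw : w ∈ Ι (-1 : ℝ) 1) : |w| ≤ 1 := by
  rw [uIoc_of_le (by norm_num : (-1 : ℝ) ≤ 1)] at hw
  exact abs_le.2 ⟨hw.1.le, hw.2⟩

lemma continuous_integrand (k : ℕ) (b u : ℝ) : Continuous fun w => w ^ k * wgt b u w := by
  unfold wgt; fun_prop

lemma mom_deriv_u (k : ℕ) (b u : ℝ) :
    HasDerivAt (fun v => mom k b v) (-mom (k + 1) b u) u := by
  have h := (intervalIntegral.hasDerivAt_integral_of_dominated_loc_of_deriv_le
    (μ := volume) (a := (-1 : ℝ)) (b := 1)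
    (F := fun v w => w ^ k * wgt b v w) (F' := fun v w => -(w ^ (k + 1) * wgt b v w))
    (x₀ := u) (s := Metric.ball u 1) (bound := fun _ => Real.exp (|b| / 2 + (|u| + 1)))
    (Metric.ball_mem_nhds u one_pos)
    (Filter.Eventually.of_forall fun v => (continuous_integrand k b v).aestronglyMeasurable)
    ((continuous_integrand k b u).intervalIntegrable _ _)
    ((continuous_integrand (k + 1) b u).neg.aestronglyMeasurable)
    (Filter.Eventually.of_forall fun w hw v hv => by
      have hw' := abs_le_one_of_mem hw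
      have hv' : |v| ≤ |u| + 1 := by
        have := abs_sub_abs_le_abs_sub v u
        rw [Metric.mem_ball, Real.dist_eq] at hv
        linarith
      rw [Real.norm_eq_abs, abs_neg, abs_mul, abs_of_pos (wgt_pos _ _ _), abs_pow]
      exact (mul_le_of_le_one_left (wgt_pos _ _ _).le (pow_le_one₀ (abs_nonneg w) hw')).trans
        (wgt_le le_rfl hv' hw'))
    intervalIntegrable_const
    (Filter.Eventually.of_forall fun w _ v _ => by
      have h1 : HasDerivAt (fun v => b * (1 - w ^ 2) / 2 - v * w) (-w) v := by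
        simpa using ((hasDerivAt_id v).mul_const w).const_sub (b * (1 - w ^ 2) / 2)
      refine (h1.exp.const_mul (w ^ k)).congr_deriv ?_
      simp only [wgt]; ring)).2
  rw [intervalIntegral.integral_neg] at h
  exact h

lemma mom_deriv_b (k : ℕ) (b u : ℝ) :
    HasDerivAt (fun c => mom k c u) ((mom k b u - mom (k + 2) b u) / 2) b := by
  have h := (intervalIntegral.hasDerivAt_integral_of_dominated_loc_of_deriv_le
    (μ := volume) (a := (-1 : ℝ)) (b := 1)
    (F := fun c w => w ^ k * wgt c u w)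
    (F' := fun c w => (w ^ k * wgt c u w - w ^ (k + 2) * wgt c u w) / 2)
    (x₀ := b) (s := Metric.ball b 1) (bound := fun _ => Real.exp ((|b| + 1) / 2 + |u|))
    (Metric.ball_mem_nhds b one_pos)
    (Filter.Eventually.of_forall fun c => (continuous_integrand k c u).aestronglyMeasurable)
    ((continuous_integrand k b u).intervalIntegrable _ _)
    ((((continuous_integrand k b u).sub (continuous_integrand (k + 2) b u)).div_const
      2).aestronglyMeasurable)
    (Filter.Eventually.of_forall fun w hw c hc => by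
      have hw' := abs_le_one_of_mem hw
      have hc' : |c| ≤ |b| + 1 := by
        have := abs_sub_abs_le_abs_sub c b
        rw [Metric.mem_ball, Real.dist_eq] at hc
        linarith
      have h2 : w ^ 2 ≤ 1 := (sq_le_one_iff_abs_le_one w).2 hw'
      rw [Real.norm_eq_abs, show (w ^ k * wgt c u w - w ^ (k + 2) * wgt c u w) / 2
          = w ^ k * ((1 - w ^ 2) / 2) * wgt c u w by ring, abs_mul, abs_of_pos (wgt_pos _ _ _),
        abs_mul, abs_pow, abs_of_nonneg (by linarith : (0 : ℝ) ≤ (1 - w ^ 2) / 2)]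
      refine (mul_le_of_le_one_left (wgt_pos _ _ _).le ?_).trans (wgt_le hc' le_rfl hw')
      exact mul_le_one₀ (pow_le_one₀ (abs_nonneg w) hw') (by linarith)
        (by nlinarith [sq_nonneg w]))
    intervalIntegrable_const
    (Filter.Eventually.of_forall fun w _ c _ => by
      have h1 : HasDerivAt (fun c => c * (1 - w ^ 2) / 2 - u * w) ((1 - w ^ 2) / 2) c := by
        simpa using (((hasDerivAt_id c).mul_const (1 - w ^ 2)).div_const 2).sub_const (u * w)
      refine (h1.exp.const_mul (w ^ k)).congr_deriv ?_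
      simp only [wgt]; ring)).2
  have e : (∫ w in (-1 : ℝ)..1, (w ^ k * wgt b u w - w ^ (k + 2) * wgt b u w) / 2)
      = (mom k b u - mom (k + 2) b u) / 2 := by
    rw [intervalIntegral.integral_div, intervalIntegral.integral_sub
      ((continuous_integrand k b u).intervalIntegrable _ _)
      ((continuous_integrand (k + 2) b u).intervalIntegrable _ _)]
    rfl
  rw [e] at h
  exact h

/-- integration by parts -/
lemma mom_identity (b u : ℝ) : u * mom 0 b u + b * mom 1 b u = 2 * Real.sinh u := by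
  have hd : ∀ w : ℝ, HasDerivAt (fun w => -wgt b u w)
      (u * (w ^ 0 * wgt b u w) + b * (w ^ 1 * wgt b u w)) w := fun w => by
    have h1 : HasDerivAt (fun w => b * (1 - w ^ 2) / 2 - u * w) (-(b * w) - u) w := by
      refine ((((hasDerivAt_pow 2 w).const_sub 1).const_mul b).div_const 2 |>.sub
        ((hasDerivAt_id w).const_mul u)).congr_deriv ?_
      norm_num
      ring
    refine h1.exp.neg.congr_deriv ?_
    simp only [wgt]; ring
  have i0 := ((continuous_integrand 0 b u).intervalIntegrable (μ := volume) (-1) 1).const_mul u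
  have i1 := ((continuous_integrand 1 b u).intervalIntegrable (μ := volume) (-1) 1).const_mul b
  have h := intervalIntegral.integral_eq_sub_of_hasDerivAt (fun w _ => hd w) (i0.add i1)
  rw [intervalIntegral.integral_add i0 i1, intervalIntegral.integral_const_mul,
    intervalIntegral.integral_const_mul] at h
  refine h.trans ?_
  simp only [wgt]
  rw [Real.sinh_eq]
  norm_num
  ring

lemma abs_mom_le (k : ℕ) {b : ℝ} (hb : 0 ≤ b) (u : ℝ) :
    |mom k b u| ≤ 4 * Real.exp (b / 2) * Real.cosh u := by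
  have h := intervalIntegral.norm_integral_le_of_norm_le_const
    (f := fun w => w ^ k * wgt b u w) (C := Real.exp (b / 2 + |u|)) (a := (-1 : ℝ)) (b := 1)
    fun w hw => by
      have hw' := abs_le_one_of_mem hw
      rw [Real.norm_eq_abs, abs_mul, abs_of_pos (wgt_pos _ _ _), abs_pow]
      exact (mul_le_of_le_one_left (wgt_pos _ _ _).le (pow_le_one₀ (abs_nonneg w) hw')).trans
        (wgt_le (le_of_eq (abs_of_nonneg hb)) le_rfl hw')
  rw [Real.norm_eq_abs, show |(1 : ℝ) - -1| = 2 by norm_num, Real.exp_add] at h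
  have hc : Real.exp |u| ≤ 2 * Real.cosh u := by
    rw [← Real.cosh_abs u, Real.cosh_eq]
    linarith [Real.exp_pos (-|u|)]
  calc |mom k b u| ≤ Real.exp (b / 2) * Real.exp |u| * 2 := h
    _ ≤ Real.exp (b / 2) * (2 * Real.cosh u) * 2 := by gcongr
    _ = 4 * Real.exp (b / 2) * Real.cosh u := by ring

lemma den_pos (h a : ℝ) : 0 < 2 * Real.cosh a * Real.cosh h := by positivity

lemma cosh_sub_le (h a : ℝ) : Real.cosh (h - a) ≤ 2 * Real.cosh a * Real.cosh h := by
  have h1 : |Real.sinh h * Real.sinh a| ≤ Real.cosh a * Real.cosh h := by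
    rw [abs_mul, mul_comm (Real.cosh a)]
    refine mul_le_mul ?_ ?_ (abs_nonneg _) (Real.cosh_pos h).le <;>
      · rw [Real.abs_sinh]
        exact (Real.sinh_lt_cosh _).le.trans_eq (Real.cosh_abs _)
  rw [Real.cosh_sub]
  linarith [neg_abs_le (Real.sinh h * Real.sinh a), abs_le.1 h1]

/-- uniform bound -/
lemma abs_ker_le (k : ℕ) {b : ℝ} (hb : 0 ≤ b) (h a : ℝ) :
    |ker k b h a| ≤ 4 * Real.exp (b / 2) := by
  rw [ker, abs_div, abs_neg, abs_of_pos (den_pos h a), div_le_iff₀ (den_pos h a)]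
  exact (abs_mom_le k hb _).trans (by have := cosh_sub_le h a; gcongr)

lemma hasDerivAt_tanh' (x : ℝ) : HasDerivAt Real.tanh (1 - Real.tanh x ^ 2) x := by
  have hc := (Real.cosh_pos x).ne'
  have e : Real.tanh = fun y => Real.sinh y / Real.cosh y := funext Real.tanh_eq_sinh_div_cosh
  rw [e]
  refine ((Real.hasDerivAt_sinh x).div (Real.hasDerivAt_cosh x) hc).congr_deriv ?_
  field_simp

lemma ker_deriv_h (k : ℕ) (b h a : ℝ) :
    HasDerivAt (fun t => ker k b t a) (-ker (k + 1) b h a - Real.tanh h * ker k b h a) h := by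
  have h1 : HasDerivAt (fun t => mom k b (t - a)) (-mom (k + 1) b (h - a)) h := by
    simpa [Function.comp_def] using
      (mom_deriv_u k b (h - a)).comp h ((hasDerivAt_id h).sub_const a)
  refine (h1.neg.div ((Real.hasDerivAt_cosh h).const_mul (2 * Real.cosh a))
    (den_pos h a).ne').congr_deriv ?_
  simp only [ker, Real.tanh_eq_sinh_div_cosh, Pi.neg_apply]
  have := (Real.cosh_pos h).ne'
  have := (Real.cosh_pos a).ne'
  field_simp

lemma ker_deriv_a (k : ℕ) (b h a : ℝ) :
    HasDerivAt (fun t => ker k b h t) (ker (k + 1) b h a - Real.tanh a * ker k b h a) a := by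
  have h1 : HasDerivAt (fun t => mom k b (h - t)) (mom (k + 1) b (h - a)) a := by
    simpa [Function.comp_def] using
      (mom_deriv_u k b (h - a)).comp a ((hasDerivAt_id a).const_sub h)
  refine (h1.neg.div (((Real.hasDerivAt_cosh a).const_mul 2).mul_const (Real.cosh h))
    (den_pos h a).ne').congr_deriv ?_
  simp only [ker, Real.tanh_eq_sinh_div_cosh, Pi.neg_apply]
  have := (Real.cosh_pos h).ne'
  have := (Real.cosh_pos a).ne'
  field_simp

lemma ker_deriv_b (k : ℕ) (b h a : ℝ) :
    HasDerivAt (fun c => ker k c h a) ((ker k b h a - ker (k + 2) b h a) / 2) b := by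
  refine ((mom_deriv_b k b (h - a)).neg.div_const _).congr_deriv ?_
  simp only [ker]
  ring

lemma sol_deriv_h (b h a : ℝ) : HasDerivAt (fun t => sol b t a) (solH b h a) h :=
  ker_deriv_h 0 b h a

/-- the Stein equation -/
theorem stein_eq (b h a : ℝ) :
    b * solH b h a + b * (sol b h a * Real.tanh h) - (h - a) * sol b h a
      = Real.tanh h - Real.tanh a := by
  have e : b * solH b h a + b * (sol b h a * Real.tanh h) - (h - a) * sol b h a
      = ((h - a) * mom 0 b (h - a) + b * mom 1 b (h - a))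
        / (2 * Real.cosh a * Real.cosh h) := by
    simp only [solH, sol, ker]; ring
  rw [e, mom_identity, Real.sinh_sub, Real.tanh_eq_sinh_div_cosh, Real.tanh_eq_sinh_div_cosh]
  have := (Real.cosh_pos h).ne'
  have := (Real.cosh_pos a).ne'
  field_simp

theorem abs_sol_le {b : ℝ} (hb : 0 ≤ b) (h a : ℝ) : |sol b h a| ≤ 4 * Real.exp (b / 2) :=
  abs_ker_le 0 hb h a

lemma abs_comb_le {x y t A : ℝ} (hx : |x| ≤ A) (hy : |y| ≤ A) (ht : |t| ≤ 1) :
    |x + t * y| ≤ 2 * A := by
  have h1 : |t * y| ≤ A := by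
    rw [abs_mul]; exact (mul_le_of_le_one_left (abs_nonneg y) ht).trans hy
  linarith [abs_add_le x (t * y)]

lemma abs_ker_deriv_h_le (k : ℕ) {b : ℝ} (hb : 0 ≤ b) (h a : ℝ) :
    |(-ker (k + 1) b h a - Real.tanh h * ker k b h a)| ≤ 8 * Real.exp (b / 2) := by
  rw [sub_eq_add_neg, ← neg_mul]
  exact (abs_comb_le (by rw [abs_neg]; exact abs_ker_le _ hb h a) (abs_ker_le _ hb h a)
    (by rw [abs_neg]; exact (Real.abs_tanh_lt_one h).le)).trans_eq (by ring)

lemma abs_ker_deriv_a_le (k : ℕ) {b : ℝ} (hb : 0 ≤ b) (h a : ℝ) :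
    |ker (k + 1) b h a - Real.tanh a * ker k b h a| ≤ 8 * Real.exp (b / 2) := by
  rw [sub_eq_add_neg, ← neg_mul]
  exact (abs_comb_le (abs_ker_le _ hb h a) (abs_ker_le _ hb h a)
    (by rw [abs_neg]; exact (Real.abs_tanh_lt_one a).le)).trans_eq (by ring)

theorem abs_solH_le {b : ℝ} (hb : 0 ≤ b) (h a : ℝ) : |solH b h a| ≤ 8 * Real.exp (b / 2) :=
  abs_ker_deriv_h_le 0 hb h a

/-- the second derivative in `h` exists and is bounded -/
theorem solH_deriv_h {b : ℝ} (hb : 0 ≤ b) (h a : ℝ) :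
    ∃ d, HasDerivAt (fun t => solH b t a) d h ∧ |d| ≤ 20 * Real.exp (b / 2) := by
  refine ⟨_, (ker_deriv_h 1 b h a).neg.sub ((hasDerivAt_tanh' h).mul (ker_deriv_h 0 b h a)), ?_⟩
  have h1 := abs_ker_deriv_h_le 1 hb h a
  have h0 := abs_ker_deriv_h_le 0 hb h a
  have ht := (Real.abs_tanh_lt_one h).le
  have hk := abs_ker_le 0 hb h a
  have hs : |1 - Real.tanh h ^ 2| ≤ 1 := by
    have h2 := (sq_le_one_iff_abs_le_one (Real.tanh h)).2 ht
    rw [abs_le]; constructor <;> nlinarith [sq_nonneg (Real.tanh h)]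
  have h3 := abs_sub (-(-ker (1 + 1) b h a - Real.tanh h * ker 1 b h a))
    ((1 - Real.tanh h ^ 2) * ker 0 b h a
      + Real.tanh h * (-ker (0 + 1) b h a - Real.tanh h * ker 0 b h a))
  rw [abs_neg] at h3
  have h4 := abs_add_le ((1 - Real.tanh h ^ 2) * ker 0 b h a)
    (Real.tanh h * (-ker (0 + 1) b h a - Real.tanh h * ker 0 b h a))
  rw [abs_mul, abs_mul] at h4
  linarith [mul_le_of_le_one_left (abs_nonneg (ker 0 b h a)) hs,
    mul_le_of_le_one_left (abs_nonneg (-ker (0 + 1) b h a - Real.tanh h * ker 0 b h a)) ht]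

/-- the mixed derivative exists and is bounded -/
theorem solH_deriv_a {b : ℝ} (hb : 0 ≤ b) (h a : ℝ) :
    ∃ d, HasDerivAt (fun t => solH b h t) d a ∧ |d| ≤ 16 * Real.exp (b / 2) := by
  refine ⟨_, (ker_deriv_a 1 b h a).neg.sub ((ker_deriv_a 0 b h a).const_mul (Real.tanh h)), ?_⟩
  rw [sub_eq_add_neg, ← neg_mul]
  exact (abs_comb_le (by rw [abs_neg]; exact abs_ker_deriv_a_le 1 hb h a)
    (abs_ker_deriv_a_le 0 hb h a)
    (by rw [abs_neg]; exact (Real.abs_tanh_lt_one h).le)).trans_eq (by ring)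

lemma lip_of_deriv {f : ℝ → ℝ} {C : ℝ} (hf : ∀ x, ∃ d, HasDerivAt f d x ∧ |d| ≤ C) (x y : ℝ) :
    |f y - f x| ≤ C * |y - x| :=
  Convex.norm_image_sub_le_of_norm_deriv_le (s := univ)
    (fun t _ => (hf t).choose_spec.1.differentiableAt)
    (fun t _ => by
      rw [(hf t).choose_spec.1.deriv, Real.norm_eq_abs]; exact (hf t).choose_spec.2)
    convex_univ (mem_univ x) (mem_univ y)

/-- joint Lipschitz bound in `(h, a)` -/
theorem ker_lip (k : ℕ) {b : ℝ} (hb : 0 ≤ b) (h a h' a' : ℝ) :
    |ker k b h a - ker k b h' a'| ≤ 8 * Real.exp (b / 2) * (|h - h'| + |a - a'|) := by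
  have h1 := lip_of_deriv (f := fun t => ker k b t a)
    (fun x => ⟨_, ker_deriv_h k b x a, abs_ker_deriv_h_le k hb x a⟩) h' h
  have h2 := lip_of_deriv (f := fun t => ker k b h' t)
    (fun x => ⟨_, ker_deriv_a k b h' x, abs_ker_deriv_a_le k hb h' x⟩) a' a
  linarith [abs_sub_le (ker k b h a) (ker k b h' a) (ker k b h' a')]

theorem sol_lip {b : ℝ} (hb : 0 ≤ b) (h a h' a' : ℝ) :
    |sol b h a - sol b h' a'| ≤ 8 * Real.exp (b / 2) * (|h - h'| + |a - a'|) :=
  ker_lip 0 hb h a h' a'

/-- joint Lipschitz bound of the derivative in `(h, a)` -/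
theorem solH_lip {b : ℝ} (hb : 0 ≤ b) (h a h' a' : ℝ) :
    |solH b h a - solH b h' a'| ≤ 20 * Real.exp (b / 2) * (|h - h'| + |a - a'|) := by
  have h1 := lip_of_deriv (f := fun t => solH b t a) (fun x => solH_deriv_h hb x a) h' h
  have h2 := lip_of_deriv (f := fun t => solH b h' t) (fun x => solH_deriv_a hb h' x) a' a
  nlinarith [abs_sub_le (solH b h a) (solH b h' a) (solH b h' a'),
    mul_nonneg (Real.exp_pos (b / 2)).le (abs_nonneg (a - a'))]

/-- Lipschitz bound in `b` on a compact range -/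
theorem ker_lip_b (k : ℕ) {b b' B : ℝ} (hb : 0 ≤ b) (hb' : 0 ≤ b') (hB : b ≤ B) (hB' : b' ≤ B)
    (h a : ℝ) : |ker k b h a - ker k b' h a| ≤ 4 * Real.exp (B / 2) * |b - b'| := by
  refine Convex.norm_image_sub_le_of_norm_deriv_le (s := Icc 0 B) (f := fun c => ker k c h a)
    (fun t _ => (ker_deriv_b k t h a).differentiableAt) (fun t ht => ?_) (convex_Icc 0 B)
    ⟨hb', hB'⟩ ⟨hb, hB⟩
  have he : Real.exp (t / 2) ≤ Real.exp (B / 2) := Real.exp_le_exp.2 (by linarith [ht.2])
  rw [(ker_deriv_b k t h a).deriv, Real.norm_eq_abs, abs_div,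
    abs_of_pos (two_pos : (0 : ℝ) < 2), div_le_iff₀ two_pos]
  linarith [abs_sub (ker k t h a) (ker (k + 2) t h a), abs_ker_le k ht.1 h a,
    abs_ker_le (k + 2) ht.1 h a]

lemma continuous_ker (k : ℕ) (b : ℝ) (hb : 0 ≤ b) :
    Continuous fun p : ℝ × ℝ => ker k b p.1 p.2 := by
  have : LipschitzWith (Real.toNNReal (16 * Real.exp (b / 2)))
      (fun p : ℝ × ℝ => ker k b p.1 p.2) := by
    refine LipschitzWith.of_dist_le_mul fun p q => ?_
    rw [Real.dist_eq, Real.coe_toNNReal _ (by positivity)]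
    refine (ker_lip k hb p.1 p.2 q.1 q.2).trans ?_
    have h1 : |p.1 - q.1| ≤ dist p q := by
      rw [← Real.dist_eq, Prod.dist_eq]; exact le_max_left _ _
    have h2 : |p.2 - q.2| ≤ dist p q := by
      rw [← Real.dist_eq, Prod.dist_eq]; exact le_max_right _ _
    nlinarith [Real.exp_pos (b / 2)]
  exact this.continuous

end Vale.Agent.P150.Fast.Stein
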